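import Vale.Agent.P258.H331.Code

/-! Codes for permutations of at most sixteen points, and the enumeration of colourings. -/

namespace Vale.Agent.N258Q

open Vale.Agent.P258.Second (force force_eq)

def dg (x i : ℕ) : ℕ := Nat.land (Nat.shiftRight x (Nat.mul 4 i)) 15

def sm (f : ℕ → ℕ) (k : ℕ) : ℕ := Nat.rec 0 (fun i r => Nat.add r (f i)) k

def mul (d x y : ℕ) : ℕ :=
  force x fun x => force y fun y => sm (fun i => Nat.shiftLeft (dg x (dg y i)) (Nat.mul 4 i)) d

def inv (d x : ℕ) : ℕ := force x fun x => sm (fun i => Nat.shiftLeft i (Nat.mul 4 (dg x i))) d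

def pw (d o : ℕ) : ℕ → ℕ → ℕ → ℕ
  | 0, _, _ => o
  | f + 1, x, k => cond (Nat.beq k 0) o (cond (Nat.beq k 1) x
      (force (mul d x x) fun y => force (Nat.div k 2) fun j => force (pw d o f y j) fun r =>
        cond (Nat.beq (Nat.mod k 2) 1) (mul d x r) r))

def full (s o n h k x y z : ℕ) : Bool :=
  force (inv s x) fun xi => force (inv s y) fun yi => force (inv s z) fun zi =>
  force (mul s y xi) fun q => force (inv s q) fun qi =>
  force (mul s (mul s qi xi) q) fun b =>
  force (mul s (mul s qi y) q) fun c =>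
  force (mul s z yi) fun q1 => force (inv s q1) fun q1i =>
  force (mul s (mul s q1i yi) q1) fun d =>
  force (mul s b x) fun p => force (pw s o 12 p n) fun pn => force (inv s pn) fun pm =>
  force (mul s d c) fun r => force (pw s o 12 r h) fun rh => force (inv s rh) fun rm =>
  force (mul s (mul s rm c) rh) fun c1 => force (mul s (mul s rm d) rh) fun d1 =>
  Nat.beq (mul s (mul s (mul s pn b) pm) (mul s (mul s (inv s c1) d1) c1)) o &&
  (force (mul s (mul s q1i z) q1) fun e =>
  force (mul s zi e) fun t => force (pw s o 12 t n) fun tn => force (inv s tn) fun tm =>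
  force (mul s (mul s tn e) tm) fun e1 => force (mul s (mul s tn zi) tm) fun f1 =>
  Nat.beq (mul s c1 (mul s (mul s (inv s e1) f1) e1)) o &&
  (Nat.beq (mul s (mul s (mul s pn x) pm) e1) o &&
  Nat.beq (mul s (mul s (mul s (mul s (mul s (mul s (pw s o 12 x n) pm)
    (inv s (mul s (mul s (mul s zi q1) (pw s o 12 e n)) tm)))
    (mul s (mul s (pw s o 12 zi n) tm) e1))
    (inv s (mul s (mul s (mul s yi q) (inv s (pw s o 12 c h))) rh)))
    (mul s (mul s (mul s (mul s y q1) (inv s (pw s o 12 d h))) rh) c1))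
    (inv s (mul s (mul s (mul s x q) (pw s o 12 b n)) pm))) (pw s o 12 x k)))

def fx (s o n y x : ℕ) : ℕ :=
  force (inv s x) fun xi => force (mul s y xi) fun q =>
  force (mul s (mul s (mul s (inv s q) xi) q) x) fun p => force (pw s o 12 p n) fun pn =>
  mul s (mul s pn x) (inv s pn)

def ez (s o n yi z : ℕ) : ℕ :=
  force (mul s z yi) fun q1 => force (mul s (mul s (inv s q1) z) q1) fun e =>
  force (mul s (inv s z) e) fun t => force (pw s o 12 t n) fun tn =>
  inv s (mul s (mul s tn e) (inv s tn))

def tab (g : ℕ → ℕ) : List ℕ → (List (ℕ × ℕ) → Bool) → Bool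
  | [], k => k []
  | z :: l, k => force (g z) fun v => tab g l fun r => k ((z, v) :: r)

def scan (v : ℕ) (f : ℕ → Bool) (T : List (ℕ × ℕ)) : Bool :=
  List.rec true (fun e _ r => cond (Nat.beq v e.2) (cond (f e.1) false r) r) T

def enum (s o n h k y : ℕ) (cl : List ℕ) : Bool :=
  force y fun y => force (inv s y) fun yi => tab (ez s o n yi) cl fun T =>
    cl.all fun u => force (inv s u) fun x => force (fx s o n y x) fun v =>
      scan v (full s o n h k x y) T

def ev (s o : ℕ) (gs w : List ℕ) : ℕ := w.foldl (fun a i => mul s a (gs.getD i o)) o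

/-- search trees -/
inductive Tr : Type
  | nil : Tr
  | nd : Tr → ℕ → ℕ → Tr → Tr

noncomputable def look (x : ℕ) (t : Tr) : ℕ :=
  Tr.rec 0 (fun _ k v _ a b => cond (Nat.beq x k) v (cond (Nat.ble x k) a b)) t

noncomputable def allT (f : ℕ → ℕ → Bool) (t : Tr) : Bool := Tr.rec true (fun _ k v _ a b => f k v && (a && b)) t

noncomputable def sel (j : ℕ) (t : Tr) : List ℕ → List ℕ :=
  Tr.rec (motive := fun _ => List ℕ → List ℕ) (fun l => l)
    (fun _ k v _ a b l => a (cond (Nat.beq (Nat.mod v 16) j) (k :: b l) (b l))) t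

/-- a colouring for one slope -/
def wit (s o : ℕ) (gs : List ℕ) (t : ℕ × Bool × List ℕ × List ℕ × List ℕ) : Bool :=
  force t.1 fun h => force (2 * h + 1) fun n =>
  force (cond t.2.1 (6 * h + 4) (6 * h)) fun k' =>
  force (ev s o gs t.2.2.1) fun x => force (ev s o gs t.2.2.2.1) fun y =>
  force (ev s o gs t.2.2.2.2) fun z =>
  Nat.ble h 600 && (!(Nat.beq (pw s o 12 x 4) o) && full s o n h k' x y z)

/-- no colouring in the class `j` for the other slope -/
noncomputable def part (s o : ℕ) (rs : List ℕ) (T : Tr) (h : ℕ) (b : Bool) (j : ℕ) : Bool :=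
  force (2 * h + 1) fun n => force (cond b (6 * h) (6 * h + 4)) fun k =>
    enum s o n h k (rs.getD j 0) (sel j T [])

/-- no colouring for one slope, a colouring for the other slope -/
def Task (s o : ℕ) (gs rs : List ℕ) (T : Tr) (t : ℕ × Bool × List ℕ × List ℕ × List ℕ) : Prop :=
  wit s o gs t = true ∧ ∀ j < rs.length, part s o rs T t.1 t.2.1 j = true

/-- the tree of all elements, with their conjugacy classes; the exponent -/
noncomputable def chk (s o N : ℕ) (gs rs : List ℕ) (T : Tr) : Bool :=
  !(Nat.beq (look o T) 0) && allT (fun x v =>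
    (gs.all fun g => force (mul s x g) fun y => !(Nat.beq (look y T) 0) &&
      force (mul s (inv s g) y) fun u => Nat.beq (Nat.mod (look u T) 16) (Nat.mod v 16)) &&
    (Nat.beq (pw s o 12 x N) o && (Nat.beq (pw s o 12 x 4) o ||
      (Nat.blt (Nat.mod v 16) rs.length && (Nat.beq x (rs.getD (Nat.mod v 16) 0) ||
        gs.any fun g => force (mul s (inv s g) (mul s x g)) fun u =>
          Nat.blt (Nat.div (look u T) 16) (Nat.div v 16)))))) T

end Vale.Agent.N258Q
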