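import Vale.Agent.N258B.A2

/-! Block D0: the word of the satellite pattern. -/

namespace Vale.Agent.N258Q

open Vale.Agent.N258B

open Set Filter Topology
open Vale.Agent.P258.Braid (Word)
open Vale.Agent.P002Z

open Vale.Agent.P258.Braid

/-- the strand `6` goes `840` times around the strands `2`, `3` -/
def ringA : Word := [(5, false), (4, false)] ++
  ((List.replicate 840 [(3, false), (2, false), (2, false), (3, false)]).flatten ++
    [(4, true), (5, true)])

/-- the strand `6` goes once around the strands `4`, `5` -/
def ringB : Word := [(5, false), (4, false), (4, false), (5, false)]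

/-- the commutator -/
def mid : Word := ringA ++ (ringB ++ (inverse ringA ++ inverse ringB))

/-- the first letters of `fam n` -/
def famA : Word := pw 1 2 ++ pw 3 2

/-- the last letters of `fam n` -/
def famB (n : ℤ) : Word := pw 0 (-2 * n) ++ (pw 2 n ++ pw 4 (1 - 2 * n))

/-- the pattern -/
def sat (n : ℤ) : Word := famA ++ (mid ++ (famB n ++ turn))

theorem fam_eq (n : ℤ) : fam n ++ turn = famA ++ (famB n ++ turn) := by
  simp only [fam, famA, famB, List.append_assoc]

/-- a strand is moved along the element `h` -/
def cj {m : ℕ} {G : Type} [Group G] (h : G) (s : St m G) : St m G :=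
  ⟨s.lab, h⁻¹ * s.col * h, s.tr * h⟩

end Vale.Agent.N258Q
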