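import Vale.Agent.N258Q.E1

/-! Block D3: metabelian groups. -/

namespace Vale.Agent.N258Q

open Vale.Agent.N258B

open Set Filter Topology
open Vale.Agent.P258.Braid (Word)
open Vale.Agent.P002Z

open Vale.Agent.P258.Braid

variable {G : Type} [Group G]

/-- the linear system has a unit as determinant -/
theorem D3_lin {A : Type} [AddCommGroup A] (S T : A →+ A) (hST : ∀ u, S (T u) = u)
    (hTS : ∀ u, T (S u) = u) (k : ℤ) (a d : A)
    (h1 : a + (2 * k + 1) • (S (S a) + a - 2 • S a) + ((2 * k + 1) • (S d + T d - 2 • d) - T d) = 0)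
    (h2 : S a + (k + 1) • (S (S a) + a - 2 • S a) + (k • (S d + T d - 2 • d) - d + S d) = 0) :
    a = 0 ∧ d = 0 := by
  have s1 := congrArg S h1
  have t1 := congrArg T h1
  have s2 := congrArg S h2
  have t2 := congrArg T h2
  simp only [map_add, map_sub, map_zsmul, map_nsmul, map_zero, hST, hTS] at s1 t1 s2 t2
  have ha : S a = 0 := by
    linear_combination (norm := module) k • (s1 + t1 - 2 • h1) - h1 + s1 -
      ((2 * k + 1) • (s2 + t2 - 2 • h2) - t2)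
  have ha0 : a = 0 := by rw [← hTS a, ha, map_zero]
  subst ha0
  simp only [map_zero] at h1 h2
  have hd : S d = 0 := by linear_combination (norm := module) 2 • h2 - h1
  exact ⟨rfl, by rw [← hTS d, hd, map_zero]⟩

theorem D3_core {A : Type} [AddCommGroup A] (S T : A →+ A) (ι m : A → G) (x : G)
    (hι : ∀ u v, ι (u + v) = ι u * ι v) (hi : Function.Injective ι)
    (hS : ∀ u, ι (S u) = x * ι u * x⁻¹) (hT : ∀ u, ι (T u) = x⁻¹ * ι u * x)
    (hm : ∀ u, m u = x * ι u) (k : ℤ) (a b : A)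
    (h : Col (2 * k + 1) ![m 0, (m 0)⁻¹, (m a)⁻¹, m a, (m b)⁻¹, m b]) : a = 0 ∧ b = 0 := by
  let f : Multiplicative A →* G := MonoidHom.mk' (fun u => ι u.toAdd) fun u v => hι _ _
  have i0 : ι 0 = 1 := f.map_one
  have iN : ∀ u, ι (-u) = (ι u)⁻¹ := fun u => f.map_inv (Multiplicative.ofAdd u)
  have iZ : ∀ u (z : ℤ), ι (z • u) = ι u ^ z := fun u z => f.map_zpow (Multiplicative.ofAdd u) z
  have iS : ∀ u v, ι (u - v) = ι u * (ι v)⁻¹ := fun u v => by rw [sub_eq_add_neg, hι, iN]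
  have hST : ∀ u, S (T u) = u := fun u => hi (by rw [hS, hT]; group)
  have hTS : ∀ u, T (S u) = u := fun u => hi (by rw [hT, hS]; group)
  have mi : ∀ u v, m u = m v → u = v := fun u v e => by
    rw [hm, hm] at e
    exact hi (mul_left_cancel e)
  have L1 : ∀ g u (z : ℤ), ι g ^ (-z) * m u * ι g ^ z = m (-T (z • g) + u + z • g) := by
    intro g u z
    rw [hm, hm, hι, hι, iN, hT, iZ]
    group
  have L1' : ∀ g u (z : ℤ), ι g ^ (-z) * (m u)⁻¹ * ι g ^ z = (m (-T (z • g) + u + z • g))⁻¹ := by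
    intro g u z
    rw [← L1]
    group
  have L2 : ∀ u v, (m v)⁻¹⁻¹ * m u * (m v)⁻¹ = m (v + S (u - v)) := by
    intro u v
    rw [hm, hm, hm, hι, hS, iS]
    group
  have L3 : ∀ u v, (m v)⁻¹ * m u = ι (-v + u) := by
    intro u v
    rw [hm, hm, hι, iN]
    group
  have L4 : ∀ u v, m u * (m v)⁻¹ = ι (S (u - v)) := by
    intro u v
    rw [hm, hm, hS, iS]
    group
  have B1 : ((m a)⁻¹ * (m 0)⁻¹) ^ (-(1 : ℤ)) * (m 0)⁻¹ * ((m a)⁻¹ * (m 0)⁻¹) ^ (1 : ℤ) =
      (m (S a - S (S a)))⁻¹ := by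
    simp only [hm, iS, hS, i0]
    group
  have B2 : ((m a)⁻¹ * (m 0)⁻¹) ^ (-(1 : ℤ)) * (m a)⁻¹ * ((m a)⁻¹ * (m 0)⁻¹) ^ (1 : ℤ) =
      (m (S a))⁻¹ := by
    rw [hm, hm, hm, hS, i0]
    group
  have h2 : (hPerm : Equiv.Perm (St 6 G × St 6 G)) ^ (2 : ℤ) = hPerm ^ (2 * 1 : ℤ) := by norm_num
  have h10 : (hPerm : Equiv.Perm (St 6 G × St 6 G)) ^ (-2 * (2 * k + 1)) =
      hPerm ^ (2 * (-(2 * k + 1))) := by
    congr 1; ring
  have h9 : (hPerm : Equiv.Perm (St 6 G × St 6 G)) ^ (1 - 2 * (2 * k + 1)) =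
      hPerm ^ (2 * (-(2 * k + 1)) + 1) := by
    congr 1; ring
  have ht := h.2
  have e : start ![m 0, (m 0)⁻¹, (m a)⁻¹, m a, (m b)⁻¹, m b] =
      ([⟨0, m 0, 1⟩, ⟨1, (m 0)⁻¹, 1⟩, ⟨2, (m a)⁻¹, 1⟩, ⟨3, m a, 1⟩, ⟨4, (m b)⁻¹, 1⟩,
        ⟨5, m b, 1⟩] : List (St 6 G)) := rfl
  rw [e, run_fam, h2, h10, h9] at ht
  simp only [actAt, hz_even, hz_odd, tw, half] at ht
  simp only [B1, B2, L3, L4, L1, L1', L2] at ht
  have E1 := mi _ _ (mul_inv_eq_one.1 (ht 0))
  have E3 := mi _ _ (inv_mul_eq_one.1 (ht 3))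
  simp only [map_add, map_sub, map_neg, map_zsmul, map_zero, hST, hTS] at E1 E3
  obtain ⟨ha, hd⟩ := D3_lin S T hST hTS k a (a - b)
    (by
      simp only [map_sub]
      linear_combination (norm := module) -E1)
    (by
      simp only [map_sub]
      linear_combination (norm := module) E3 - E1)
  exact ⟨ha, by rw [← sub_eq_zero.1 hd, ha]⟩

/-- the Alexander polynomial of the closure of `fam n` is trivial -/
theorem col_metabelian {n : ℤ} (hn : Odd n)
    (hG : ∀ a ∈ commutator G, ∀ b ∈ commutator G, Commute a b) {c : Fin 6 → G} (h : Col n c) :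
    c 2 = (c 0)⁻¹ ∧ c 4 = (c 0)⁻¹ := by
  have b1 : c 1 = (c 0)⁻¹ := eq_inv_of_mul_eq_one_right (h.1 0)
  have b2 : c 2 = (c 3)⁻¹ := eq_inv_of_mul_eq_one_left (h.1 2)
  have b4 : c 4 = (c 5)⁻¹ := eq_inv_of_mul_eq_one_left (h.1 4)
  let φ : G →* Abelianization G := Abelianization.of
  have hl := A2_lab hn fun i => φ (c i)
  have hc := A2_run_comm (fun i => φ (c i)) (fam n) (start fun i => φ (c i)) (by
    intro s hs
    obtain ⟨i, rfl⟩ := (List.mem_ofFn' _ _).1 hs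
    rfl)
  have ht : ∀ i, (pick (run (fam n) (start fun i => φ (c i))) i).col *
      (pick (run (fam n) (start fun i => φ (c i))) (caps6.top i)).col = 1 := fun i => by
    rw [col_map, col_map, ← map_mul, h.2 i, map_one]
  obtain ⟨s0, s1, s2, s3, s4, s5, hr⟩ := list6 (run (fam n) (start fun i => φ (c i)))
    (by rw [run_length, start_length])
  rw [hr] at hl hc ht
  simp only [List.map_cons, List.map_nil, List.cons.injEq, and_true] at hl
  obtain ⟨l0, l1, l2, l3, l4, l5⟩ := hl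
  have t0 : s0.col * s5.col = 1 := ht 0
  have t1 : s1.col * s2.col = 1 := ht 1
  rw [hc s0 (by simp), hc s5 (by simp), l0, l5, ← map_mul] at t0
  rw [hc s1 (by simp), hc s2 (by simp), l1, l2, ← map_mul, b1] at t1
  have ha : (c 0)⁻¹ * c 3 ∈ commutator G := (QuotientGroup.eq_one_iff _).1 t1
  have hb : (c 0)⁻¹ * c 5 ∈ commutator G := by
    refine (QuotientGroup.eq_one_iff _).1 ?_
    change φ _ = 1
    rw [b4, map_mul, map_inv, mul_inv_eq_one] at t0
    rw [map_mul, map_inv, t0, inv_mul_cancel]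
  let _ : CommGroup (commutator G) :=
    { (inferInstance : Group (commutator G)) with
      mul_comm := fun u v => Subtype.ext (hG _ u.2 _ v.2) }
  obtain ⟨k, rfl⟩ := hn
  have e : c = ![c 0 * 1, (c 0 * 1)⁻¹, (c 0 * ((c 0)⁻¹ * c 3))⁻¹, c 0 * ((c 0)⁻¹ * c 3),
      (c 0 * ((c 0)⁻¹ * c 5))⁻¹, c 0 * ((c 0)⁻¹ * c 5)] := by
    funext i
    fin_cases i <;> simp [b1, b2, b4]
  obtain ⟨k1, k2⟩ := D3_core (A := Additive (commutator G))
    (MonoidHom.toAdditive (MulAut.conjNormal (c 0)).toMonoidHom)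
    (MonoidHom.toAdditive (MulAut.conjNormal (c 0)⁻¹).toMonoidHom)
    (fun u => (u.toMul : G)) (fun u => c 0 * (u.toMul : G)) (c 0) (fun _ _ => rfl)
    (fun _ _ e => Subtype.ext e) (fun u => rfl) (fun u => by
      change (c 0)⁻¹ * _ * (c 0)⁻¹⁻¹ = _
      rw [inv_inv]) (fun _ => rfl) k (Additive.ofMul ⟨_, ha⟩) (Additive.ofMul ⟨_, hb⟩) (e ▸ h)
  have k1' : (c 0)⁻¹ * c 3 = 1 := congrArg (fun u : Additive (commutator G) => (u.toMul : G)) k1
  have k2' : (c 0)⁻¹ * c 5 = 1 := congrArg (fun u : Additive (commutator G) => (u.toMul : G)) k2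
  rw [b2, b4, ← inv_mul_eq_one.1 k1', ← inv_mul_eq_one.1 k2']
  exact ⟨rfl, rfl⟩

end Vale.Agent.N258Q
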