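import Vale.Agent.N258Q.G5

/-! Enumeration of colourings. -/

namespace Vale.Agent.N258Q

def ts5a : List (ℕ × Bool × List ℕ × List ℕ × List ℕ) :=
  [(2, true, [0, 1, 1, 1], [1, 1, 1, 0], [1, 1, 0, 1]), (3, true, [0, 1, 0, 1, 1, 0], [1, 0, 1],
  [1, 0, 1, 1]), (4, false, [1, 0, 1], [0, 1, 1], [1, 0, 1, 1]), (6, false, [1, 1, 0, 1, 0, 1],
  [1, 1, 0, 1, 1, 0], [1, 0, 1, 1, 0, 1]), (8, true, [1, 1, 1, 0, 1, 0], [0, 1, 0, 1, 1, 1], [1,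
  0, 1, 1, 0, 1]), (10, true, [1, 1, 1, 0], [0, 1, 1, 1], [1, 0, 1, 1]), (11, false, [1, 1, 0],
  [0, 1, 1], [0, 1, 1, 1]), (12, false, [1, 0, 1], [1, 1, 1, 0], [1, 1, 0]), (17, true, [0, 1,
  1, 1], [1, 1, 1, 0], [1, 1, 0, 1]), (18, true, [0, 1, 0, 1, 1, 0], [1, 0, 1], [1, 0, 1, 1]),
  (19, false, [1, 0, 1], [0, 1, 1], [1, 0, 1, 1]), (21, false, [1, 1, 0, 1, 0, 1], [1, 1, 0, 1,
  1, 0], [1, 0, 1, 1, 0, 1]), (23, true, [1, 1, 1, 0, 1, 0], [0, 1, 0, 1, 1, 1], [1, 0, 1, 1, 0,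
  1]), (25, true, [1, 1, 1, 0], [0, 1, 1, 1], [1, 0, 1, 1]), (26, false, [1, 1, 0], [0, 1, 1],
  [0, 1, 1, 1]), (27, false, [1, 0, 1], [1, 1, 1, 0], [1, 1, 0]), (32, true, [0, 1, 1, 1], [1,
  1, 1, 0], [1, 1, 0, 1]), (33, true, [0, 1, 0, 1, 1, 0], [1, 0, 1], [1, 0, 1, 1]), (34, false,
  [1, 0, 1], [0, 1, 1], [1, 0, 1, 1]), (36, false, [1, 1, 0, 1, 0, 1], [1, 1, 0, 1, 1, 0], [1,
  0, 1, 1, 0, 1]), (38, true, [1, 1, 1, 0, 1, 0], [0, 1, 0, 1, 1, 1], [1, 0, 1, 1, 0, 1]), (40,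
  true, [1, 1, 1, 0], [0, 1, 1, 1], [1, 0, 1, 1]), (41, false, [1, 1, 0], [0, 1, 1], [0, 1, 1,
  1]), (42, false, [1, 0, 1], [1, 1, 1, 0], [1, 1, 0]), (47, true, [0, 1, 1, 1], [1, 1, 1, 0],
  [1, 1, 0, 1]), (48, true, [0, 1, 0, 1, 1, 0], [1, 0, 1], [1, 0, 1, 1]), (49, false, [1, 0, 1],
  [0, 1, 1], [1, 0, 1, 1]), (51, false, [1, 1, 0, 1, 0, 1], [1, 1, 0, 1, 1, 0], [1, 0, 1, 1, 0,
  1]), (53, true, [1, 1, 1, 0, 1, 0], [0, 1, 0, 1, 1, 1], [1, 0, 1, 1, 0, 1]), (55, true, [1, 1,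
  1, 0], [0, 1, 1, 1], [1, 0, 1, 1]), (56, false, [1, 1, 0], [0, 1, 1], [0, 1, 1, 1]), (57,
  false, [1, 0, 1], [1, 1, 1, 0], [1, 1, 0])]

theorem tk5a0 : Task 5 274960 gs5 rs5 tr5
    (2, true, [0, 1, 1, 1], [1, 1, 1, 0], [1, 1, 0, 1]) :=
  ⟨by decide +kernel, by decide +kernel⟩

theorem tk5a1 : Task 5 274960 gs5 rs5 tr5
    (3, true, [0, 1, 0, 1, 1, 0], [1, 0, 1], [1, 0, 1, 1]) :=
  ⟨by decide +kernel, by decide +kernel⟩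

theorem tk5a2 : Task 5 274960 gs5 rs5 tr5
    (4, false, [1, 0, 1], [0, 1, 1], [1, 0, 1, 1]) :=
  ⟨by decide +kernel, by decide +kernel⟩

theorem tk5a3 : Task 5 274960 gs5 rs5 tr5
    (6, false, [1, 1, 0, 1, 0, 1], [1, 1, 0, 1, 1, 0], [1, 0, 1, 1, 0, 1]) :=
  ⟨by decide +kernel, by decide +kernel⟩

theorem tk5a4 : Task 5 274960 gs5 rs5 tr5
    (8, true, [1, 1, 1, 0, 1, 0], [0, 1, 0, 1, 1, 1], [1, 0, 1, 1, 0, 1]) :=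
  ⟨by decide +kernel, by decide +kernel⟩

theorem tk5a5 : Task 5 274960 gs5 rs5 tr5
    (10, true, [1, 1, 1, 0], [0, 1, 1, 1], [1, 0, 1, 1]) :=
  ⟨by decide +kernel, by decide +kernel⟩

theorem tk5a6 : Task 5 274960 gs5 rs5 tr5
    (11, false, [1, 1, 0], [0, 1, 1], [0, 1, 1, 1]) :=
  ⟨by decide +kernel, by decide +kernel⟩

theorem tk5a7 : Task 5 274960 gs5 rs5 tr5
    (12, false, [1, 0, 1], [1, 1, 1, 0], [1, 1, 0]) :=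
  ⟨by decide +kernel, by decide +kernel⟩

theorem tk5a8 : Task 5 274960 gs5 rs5 tr5
    (17, true, [0, 1, 1, 1], [1, 1, 1, 0], [1, 1, 0, 1]) :=
  ⟨by decide +kernel, by decide +kernel⟩

theorem tk5a9 : Task 5 274960 gs5 rs5 tr5
    (18, true, [0, 1, 0, 1, 1, 0], [1, 0, 1], [1, 0, 1, 1]) :=
  ⟨by decide +kernel, by decide +kernel⟩

theorem tk5a10 : Task 5 274960 gs5 rs5 tr5
    (19, false, [1, 0, 1], [0, 1, 1], [1, 0, 1, 1]) :=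
  ⟨by decide +kernel, by decide +kernel⟩

theorem tk5a11 : Task 5 274960 gs5 rs5 tr5
    (21, false, [1, 1, 0, 1, 0, 1], [1, 1, 0, 1, 1, 0], [1, 0, 1, 1, 0, 1]) :=
  ⟨by decide +kernel, by decide +kernel⟩

theorem tk5a12 : Task 5 274960 gs5 rs5 tr5
    (23, true, [1, 1, 1, 0, 1, 0], [0, 1, 0, 1, 1, 1], [1, 0, 1, 1, 0, 1]) :=
  ⟨by decide +kernel, by decide +kernel⟩

theorem tk5a13 : Task 5 274960 gs5 rs5 tr5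
    (25, true, [1, 1, 1, 0], [0, 1, 1, 1], [1, 0, 1, 1]) :=
  ⟨by decide +kernel, by decide +kernel⟩

theorem tk5a14 : Task 5 274960 gs5 rs5 tr5
    (26, false, [1, 1, 0], [0, 1, 1], [0, 1, 1, 1]) :=
  ⟨by decide +kernel, by decide +kernel⟩

theorem tk5a15 : Task 5 274960 gs5 rs5 tr5
    (27, false, [1, 0, 1], [1, 1, 1, 0], [1, 1, 0]) :=
  ⟨by decide +kernel, by decide +kernel⟩

theorem tk5a16 : Task 5 274960 gs5 rs5 tr5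
    (32, true, [0, 1, 1, 1], [1, 1, 1, 0], [1, 1, 0, 1]) :=
  ⟨by decide +kernel, by decide +kernel⟩

theorem tk5a17 : Task 5 274960 gs5 rs5 tr5
    (33, true, [0, 1, 0, 1, 1, 0], [1, 0, 1], [1, 0, 1, 1]) :=
  ⟨by decide +kernel, by decide +kernel⟩

theorem tk5a18 : Task 5 274960 gs5 rs5 tr5
    (34, false, [1, 0, 1], [0, 1, 1], [1, 0, 1, 1]) :=
  ⟨by decide +kernel, by decide +kernel⟩

theorem tk5a19 : Task 5 274960 gs5 rs5 tr5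
    (36, false, [1, 1, 0, 1, 0, 1], [1, 1, 0, 1, 1, 0], [1, 0, 1, 1, 0, 1]) :=
  ⟨by decide +kernel, by decide +kernel⟩

theorem tk5a20 : Task 5 274960 gs5 rs5 tr5
    (38, true, [1, 1, 1, 0, 1, 0], [0, 1, 0, 1, 1, 1], [1, 0, 1, 1, 0, 1]) :=
  ⟨by decide +kernel, by decide +kernel⟩

theorem tk5a21 : Task 5 274960 gs5 rs5 tr5
    (40, true, [1, 1, 1, 0], [0, 1, 1, 1], [1, 0, 1, 1]) :=
  ⟨by decide +kernel, by decide +kernel⟩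

theorem tk5a22 : Task 5 274960 gs5 rs5 tr5
    (41, false, [1, 1, 0], [0, 1, 1], [0, 1, 1, 1]) :=
  ⟨by decide +kernel, by decide +kernel⟩

theorem tk5a23 : Task 5 274960 gs5 rs5 tr5
    (42, false, [1, 0, 1], [1, 1, 1, 0], [1, 1, 0]) :=
  ⟨by decide +kernel, by decide +kernel⟩

theorem tk5a24 : Task 5 274960 gs5 rs5 tr5
    (47, true, [0, 1, 1, 1], [1, 1, 1, 0], [1, 1, 0, 1]) :=
  ⟨by decide +kernel, by decide +kernel⟩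

theorem tk5a25 : Task 5 274960 gs5 rs5 tr5
    (48, true, [0, 1, 0, 1, 1, 0], [1, 0, 1], [1, 0, 1, 1]) :=
  ⟨by decide +kernel, by decide +kernel⟩

theorem tk5a26 : Task 5 274960 gs5 rs5 tr5
    (49, false, [1, 0, 1], [0, 1, 1], [1, 0, 1, 1]) :=
  ⟨by decide +kernel, by decide +kernel⟩

theorem tk5a27 : Task 5 274960 gs5 rs5 tr5
    (51, false, [1, 1, 0, 1, 0, 1], [1, 1, 0, 1, 1, 0], [1, 0, 1, 1, 0, 1]) :=
  ⟨by decide +kernel, by decide +kernel⟩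

theorem tk5a28 : Task 5 274960 gs5 rs5 tr5
    (53, true, [1, 1, 1, 0, 1, 0], [0, 1, 0, 1, 1, 1], [1, 0, 1, 1, 0, 1]) :=
  ⟨by decide +kernel, by decide +kernel⟩

theorem tk5a29 : Task 5 274960 gs5 rs5 tr5
    (55, true, [1, 1, 1, 0], [0, 1, 1, 1], [1, 0, 1, 1]) :=
  ⟨by decide +kernel, by decide +kernel⟩

theorem tk5a30 : Task 5 274960 gs5 rs5 tr5
    (56, false, [1, 1, 0], [0, 1, 1], [0, 1, 1, 1]) :=
  ⟨by decide +kernel, by decide +kernel⟩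

theorem tk5a31 : Task 5 274960 gs5 rs5 tr5
    (57, false, [1, 0, 1], [1, 1, 1, 0], [1, 1, 0]) :=
  ⟨by decide +kernel, by decide +kernel⟩

theorem ok5a : ∀ t ∈ ts5a, Task 5 274960 gs5 rs5 tr5 t :=
  List.forall_mem_cons.2 ⟨tk5a0,
  List.forall_mem_cons.2 ⟨tk5a1,
  List.forall_mem_cons.2 ⟨tk5a2,
  List.forall_mem_cons.2 ⟨tk5a3,
  List.forall_mem_cons.2 ⟨tk5a4,
  List.forall_mem_cons.2 ⟨tk5a5,
  List.forall_mem_cons.2 ⟨tk5a6,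
  List.forall_mem_cons.2 ⟨tk5a7,
  List.forall_mem_cons.2 ⟨tk5a8,
  List.forall_mem_cons.2 ⟨tk5a9,
  List.forall_mem_cons.2 ⟨tk5a10,
  List.forall_mem_cons.2 ⟨tk5a11,
  List.forall_mem_cons.2 ⟨tk5a12,
  List.forall_mem_cons.2 ⟨tk5a13,
  List.forall_mem_cons.2 ⟨tk5a14,
  List.forall_mem_cons.2 ⟨tk5a15,
  List.forall_mem_cons.2 ⟨tk5a16,
  List.forall_mem_cons.2 ⟨tk5a17,
  List.forall_mem_cons.2 ⟨tk5a18,
  List.forall_mem_cons.2 ⟨tk5a19,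
  List.forall_mem_cons.2 ⟨tk5a20,
  List.forall_mem_cons.2 ⟨tk5a21,
  List.forall_mem_cons.2 ⟨tk5a22,
  List.forall_mem_cons.2 ⟨tk5a23,
  List.forall_mem_cons.2 ⟨tk5a24,
  List.forall_mem_cons.2 ⟨tk5a25,
  List.forall_mem_cons.2 ⟨tk5a26,
  List.forall_mem_cons.2 ⟨tk5a27,
  List.forall_mem_cons.2 ⟨tk5a28,
  List.forall_mem_cons.2 ⟨tk5a29,
  List.forall_mem_cons.2 ⟨tk5a30,
  List.forall_mem_cons.2 ⟨tk5a31,
  List.forall_mem_nil _⟩⟩⟩⟩⟩⟩⟩⟩⟩⟩⟩⟩⟩⟩⟩⟩⟩⟩⟩⟩⟩⟩⟩⟩⟩⟩⟩⟩⟩⟩⟩⟩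

end Vale.Agent.N258Q
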