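import Vale.Agent.N258Q.G6

/-! Enumeration of colourings. -/

namespace Vale.Agent.N258Q

def ts6a : List (ℕ × Bool × List ℕ × List ℕ × List ℕ) :=
  [(14, true, [1, 0, 1], [1, 1, 0, 1, 0, 1, 1, 1, 1], [0, 1, 1]), (15, false, [0, 1, 1, 0, 1],
  [0, 1, 0, 1, 0], [1]), (29, false, [0, 1, 1], [1, 1, 1, 0, 1, 0, 1, 1, 1], [1, 0, 1, 0, 1])]

theorem tk6a0 : Task 6 5517840 gs6 rs6 tr6
    (14, true, [1, 0, 1], [1, 1, 0, 1, 0, 1, 1, 1, 1], [0, 1, 1]) :=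
  ⟨by decide +kernel, by decide +kernel⟩

theorem tk6a1 : Task 6 5517840 gs6 rs6 tr6
    (15, false, [0, 1, 1, 0, 1], [0, 1, 0, 1, 0], [1]) :=
  ⟨by decide +kernel, by decide +kernel⟩

theorem tk6a2 : Task 6 5517840 gs6 rs6 tr6
    (29, false, [0, 1, 1], [1, 1, 1, 0, 1, 0, 1, 1, 1], [1, 0, 1, 0, 1]) :=
  ⟨by decide +kernel, by decide +kernel⟩

theorem ok6a : ∀ t ∈ ts6a, Task 6 5517840 gs6 rs6 tr6 t :=
  List.forall_mem_cons.2 ⟨tk6a0,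
  List.forall_mem_cons.2 ⟨tk6a1,
  List.forall_mem_cons.2 ⟨tk6a2,
  List.forall_mem_nil _⟩⟩⟩

end Vale.Agent.N258Q
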