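import Vale.Agent.N258Q.G6

/-! Enumeration of colourings. -/

namespace Vale.Agent.N258Q

def ts6b : List (ℕ × Bool × List ℕ × List ℕ × List ℕ) :=
  [(30, true, [0, 1, 0, 1, 1, 0, 1], [1, 0, 1, 1, 1], [1, 1, 0]), (44, true, [1], [1, 1, 1, 1,
  1, 0, 1, 1, 1], [0, 1, 0]), (45, false, [1, 1, 0, 1, 1], [0, 1, 0], [1, 1, 1, 0, 1])]

theorem tk6b0 : Task 6 5517840 gs6 rs6 tr6
    (30, true, [0, 1, 0, 1, 1, 0, 1], [1, 0, 1, 1, 1], [1, 1, 0]) :=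
  ⟨by decide +kernel, by decide +kernel⟩

theorem tk6b1 : Task 6 5517840 gs6 rs6 tr6
    (44, true, [1], [1, 1, 1, 1, 1, 0, 1, 1, 1], [0, 1, 0]) :=
  ⟨by decide +kernel, by decide +kernel⟩

theorem tk6b2 : Task 6 5517840 gs6 rs6 tr6
    (45, false, [1, 1, 0, 1, 1], [0, 1, 0], [1, 1, 1, 0, 1]) :=
  ⟨by decide +kernel, by decide +kernel⟩

theorem ok6b : ∀ t ∈ ts6b, Task 6 5517840 gs6 rs6 tr6 t :=
  List.forall_mem_cons.2 ⟨tk6b0,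
  List.forall_mem_cons.2 ⟨tk6b1,
  List.forall_mem_cons.2 ⟨tk6b2,
  List.forall_mem_nil _⟩⟩⟩

end Vale.Agent.N258Q
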