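import Vale.Agent.N258Q.G7

/-! Enumeration of colourings. -/

namespace Vale.Agent.N258Q

def ts7b : List (ℕ × Bool × List ℕ × List ℕ × List ℕ) :=
  [(65, false, [1, 0, 1, 0, 1, 1, 0, 0, 1], [0, 1, 1], [1, 1, 0])]

theorem pt7b0 : part 7 106181136 rs7 tr7 65 false 0 = true := by decide +kernel

theorem pt7b1 : part 7 106181136 rs7 tr7 65 false 1 = true := by decide +kernel

theorem pt7b2 : part 7 106181136 rs7 tr7 65 false 2 = true := by decide +kernel

theorem pt7b3 : part 7 106181136 rs7 tr7 65 false 3 = true := by decide +kernel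

theorem pt7b4 : part 7 106181136 rs7 tr7 65 false 4 = true := by decide +kernel

theorem pt7b5 : part 7 106181136 rs7 tr7 65 false 5 = true := by decide +kernel

theorem tk7b0 : Task 7 106181136 gs7 rs7 tr7
    (65, false, [1, 0, 1, 0, 1, 1, 0, 0, 1], [0, 1, 1], [1, 1, 0]) :=
  ⟨by decide +kernel, fun j hj => by
    have h : j < 6 := hj
    interval_cases j
    exacts [pt7b0, pt7b1, pt7b2, pt7b3, pt7b4, pt7b5]⟩

theorem ok7b : ∀ t ∈ ts7b, Task 7 106181136 gs7 rs7 tr7 t :=
  List.forall_mem_cons.2 ⟨tk7b0,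
  List.forall_mem_nil _⟩

end Vale.Agent.N258Q
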