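import Vale.Agent.N258Q.G7

/-! Enumeration of colourings. -/

namespace Vale.Agent.N258Q

def ts7c : List (ℕ × Bool × List ℕ × List ℕ × List ℕ) :=
  [(174, true, [0, 1, 0, 1], [0, 0, 1, 0, 1, 0, 1, 0, 0], [1, 1])]

theorem pt7c0 : part 7 106181136 rs7 tr7 174 true 0 = true := by decide +kernel

theorem pt7c1 : part 7 106181136 rs7 tr7 174 true 1 = true := by decide +kernel

theorem pt7c2 : part 7 106181136 rs7 tr7 174 true 2 = true := by decide +kernel

theorem pt7c3 : part 7 106181136 rs7 tr7 174 true 3 = true := by decide +kernel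

theorem pt7c4 : part 7 106181136 rs7 tr7 174 true 4 = true := by decide +kernel

theorem pt7c5 : part 7 106181136 rs7 tr7 174 true 5 = true := by decide +kernel

theorem tk7c0 : Task 7 106181136 gs7 rs7 tr7
    (174, true, [0, 1, 0, 1], [0, 0, 1, 0, 1, 0, 1, 0, 0], [1, 1]) :=
  ⟨by decide +kernel, fun j hj => by
    have h : j < 6 := hj
    interval_cases j
    exacts [pt7c0, pt7c1, pt7c2, pt7c3, pt7c4, pt7c5]⟩

theorem ok7c : ∀ t ∈ ts7c, Task 7 106181136 gs7 rs7 tr7 t :=
  List.forall_mem_cons.2 ⟨tk7c0,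
  List.forall_mem_nil _⟩

end Vale.Agent.N258Q
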