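import Vale.Agent.N258Q.G7

/-! Enumeration of colourings. -/

namespace Vale.Agent.N258Q

def ts7d : List (ℕ × Bool × List ℕ × List ℕ × List ℕ) :=
  [(245, false, [0, 1, 0, 1], [1], [0, 0, 1, 0, 1, 1, 1, 1, 0])]

theorem pt7d0 : part 7 106181136 rs7 tr7 245 false 0 = true := by decide +kernel

theorem pt7d1 : part 7 106181136 rs7 tr7 245 false 1 = true := by decide +kernel

theorem pt7d2 : part 7 106181136 rs7 tr7 245 false 2 = true := by decide +kernel

theorem pt7d3 : part 7 106181136 rs7 tr7 245 false 3 = true := by decide +kernel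

theorem pt7d4 : part 7 106181136 rs7 tr7 245 false 4 = true := by decide +kernel

theorem pt7d5 : part 7 106181136 rs7 tr7 245 false 5 = true := by decide +kernel

theorem tk7d0 : Task 7 106181136 gs7 rs7 tr7
    (245, false, [0, 1, 0, 1], [1], [0, 0, 1, 0, 1, 1, 1, 1, 0]) :=
  ⟨by decide +kernel, fun j hj => by
    have h : j < 6 := hj
    interval_cases j
    exacts [pt7d0, pt7d1, pt7d2, pt7d3, pt7d4, pt7d5]⟩

theorem ok7d : ∀ t ∈ ts7d, Task 7 106181136 gs7 rs7 tr7 t :=
  List.forall_mem_cons.2 ⟨tk7d0,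
  List.forall_mem_nil _⟩

end Vale.Agent.N258Q
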