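import Vale.Agent.N258Q.G7

/-! Enumeration of colourings. -/

namespace Vale.Agent.N258Q

def ts7e : List (ℕ × Bool × List ℕ × List ℕ × List ℕ) :=
  [(354, true, [0, 1, 1], [0, 1, 1, 0, 0, 1, 1, 1, 0, 0], [1, 1, 0])]

theorem pt7e0 : part 7 106181136 rs7 tr7 354 true 0 = true := by decide +kernel

theorem pt7e1 : part 7 106181136 rs7 tr7 354 true 1 = true := by decide +kernel

theorem pt7e2 : part 7 106181136 rs7 tr7 354 true 2 = true := by decide +kernel

theorem pt7e3 : part 7 106181136 rs7 tr7 354 true 3 = true := by decide +kernel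

theorem pt7e4 : part 7 106181136 rs7 tr7 354 true 4 = true := by decide +kernel

theorem pt7e5 : part 7 106181136 rs7 tr7 354 true 5 = true := by decide +kernel

theorem tk7e0 : Task 7 106181136 gs7 rs7 tr7
    (354, true, [0, 1, 1], [0, 1, 1, 0, 0, 1, 1, 1, 0, 0], [1, 1, 0]) :=
  ⟨by decide +kernel, fun j hj => by
    have h : j < 6 := hj
    interval_cases j
    exacts [pt7e0, pt7e1, pt7e2, pt7e3, pt7e4, pt7e5]⟩

theorem ok7e : ∀ t ∈ ts7e, Task 7 106181136 gs7 rs7 tr7 t :=
  List.forall_mem_cons.2 ⟨tk7e0,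
  List.forall_mem_nil _⟩

end Vale.Agent.N258Q
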