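import Vale.Agent.N258Q.G7

/-! Enumeration of colourings. -/

namespace Vale.Agent.N258Q

def ts7f : List (ℕ × Bool × List ℕ × List ℕ × List ℕ) :=
  [(365, false, [1, 0, 0, 1], [0, 1, 1, 0, 0], [1, 1, 0, 0, 1, 0, 1])]

theorem pt7f0 : part 7 106181136 rs7 tr7 365 false 0 = true := by decide +kernel

theorem pt7f1 : part 7 106181136 rs7 tr7 365 false 1 = true := by decide +kernel

theorem pt7f2 : part 7 106181136 rs7 tr7 365 false 2 = true := by decide +kernel

theorem pt7f3 : part 7 106181136 rs7 tr7 365 false 3 = true := by decide +kernel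

theorem pt7f4 : part 7 106181136 rs7 tr7 365 false 4 = true := by decide +kernel

theorem pt7f5 : part 7 106181136 rs7 tr7 365 false 5 = true := by decide +kernel

theorem tk7f0 : Task 7 106181136 gs7 rs7 tr7
    (365, false, [1, 0, 0, 1], [0, 1, 1, 0, 0], [1, 1, 0, 0, 1, 0, 1]) :=
  ⟨by decide +kernel, fun j hj => by
    have h : j < 6 := hj
    interval_cases j
    exacts [pt7f0, pt7f1, pt7f2, pt7f3, pt7f4, pt7f5]⟩

theorem ok7f : ∀ t ∈ ts7f, Task 7 106181136 gs7 rs7 tr7 t :=
  List.forall_mem_cons.2 ⟨tk7f0,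
  List.forall_mem_nil _⟩

end Vale.Agent.N258Q
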