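import Vale.Agent.N258Q.G8

/-! Enumeration of colourings. -/

namespace Vale.Agent.N258Q

def ts8a : List (ℕ × Bool × List ℕ × List ℕ × List ℕ) :=
  [(5, false, [0, 2, 1], [1, 0, 1, 2, 0], [1, 2, 0, 0]), (11, false, [0, 1, 2], [0, 2], [2]),
  (17, false, [1, 0, 1, 2], [2, 0], [2, 1, 0, 1]), (24, true, [0, 2], [0, 1, 2], [1, 2, 0]),
  (30, true, [0, 2], [0, 1, 0, 2], [1, 2, 0]), (35, false, [0, 2, 1, 0], [2, 1, 0, 0], [1, 2, 2,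
  2, 0]), (41, false, [2, 0, 1], [2, 0, 0], [0, 1, 2]), (42, true, [1, 2, 0], [1, 0, 1, 2],
  [2]), (48, true, [0, 2, 1, 0], [2, 1, 0, 0], [0, 2, 0, 1, 0]), (53, false, [0, 1, 2], [0, 2],
  [2]), (59, false, [1, 0, 1, 2], [2, 0], [2, 1, 0, 1]), (66, true, [0, 2], [0, 1, 2], [1, 2,
  0]), (72, true, [0, 2], [0, 1, 0, 2], [1, 2, 0]), (78, true, [1, 0, 2], [0, 1, 2, 0], [1, 2,
  0, 0])]

theorem tk8a0 : Task 8 1985229328 gs8 rs8 tr8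
    (5, false, [0, 2, 1], [1, 0, 1, 2, 0], [1, 2, 0, 0]) :=
  ⟨by decide +kernel, by decide +kernel⟩

theorem tk8a1 : Task 8 1985229328 gs8 rs8 tr8
    (11, false, [0, 1, 2], [0, 2], [2]) :=
  ⟨by decide +kernel, by decide +kernel⟩

theorem tk8a2 : Task 8 1985229328 gs8 rs8 tr8
    (17, false, [1, 0, 1, 2], [2, 0], [2, 1, 0, 1]) :=
  ⟨by decide +kernel, by decide +kernel⟩

theorem tk8a3 : Task 8 1985229328 gs8 rs8 tr8
    (24, true, [0, 2], [0, 1, 2], [1, 2, 0]) :=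
  ⟨by decide +kernel, by decide +kernel⟩

theorem tk8a4 : Task 8 1985229328 gs8 rs8 tr8
    (30, true, [0, 2], [0, 1, 0, 2], [1, 2, 0]) :=
  ⟨by decide +kernel, by decide +kernel⟩

theorem tk8a5 : Task 8 1985229328 gs8 rs8 tr8
    (35, false, [0, 2, 1, 0], [2, 1, 0, 0], [1, 2, 2, 2, 0]) :=
  ⟨by decide +kernel, by decide +kernel⟩

theorem tk8a6 : Task 8 1985229328 gs8 rs8 tr8
    (41, false, [2, 0, 1], [2, 0, 0], [0, 1, 2]) :=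
  ⟨by decide +kernel, by decide +kernel⟩

theorem tk8a7 : Task 8 1985229328 gs8 rs8 tr8
    (42, true, [1, 2, 0], [1, 0, 1, 2], [2]) :=
  ⟨by decide +kernel, by decide +kernel⟩

theorem tk8a8 : Task 8 1985229328 gs8 rs8 tr8
    (48, true, [0, 2, 1, 0], [2, 1, 0, 0], [0, 2, 0, 1, 0]) :=
  ⟨by decide +kernel, by decide +kernel⟩

theorem tk8a9 : Task 8 1985229328 gs8 rs8 tr8
    (53, false, [0, 1, 2], [0, 2], [2]) :=
  ⟨by decide +kernel, by decide +kernel⟩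

theorem tk8a10 : Task 8 1985229328 gs8 rs8 tr8
    (59, false, [1, 0, 1, 2], [2, 0], [2, 1, 0, 1]) :=
  ⟨by decide +kernel, by decide +kernel⟩

theorem tk8a11 : Task 8 1985229328 gs8 rs8 tr8
    (66, true, [0, 2], [0, 1, 2], [1, 2, 0]) :=
  ⟨by decide +kernel, by decide +kernel⟩

theorem tk8a12 : Task 8 1985229328 gs8 rs8 tr8
    (72, true, [0, 2], [0, 1, 0, 2], [1, 2, 0]) :=
  ⟨by decide +kernel, by decide +kernel⟩

theorem tk8a13 : Task 8 1985229328 gs8 rs8 tr8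
    (78, true, [1, 0, 2], [0, 1, 2, 0], [1, 2, 0, 0]) :=
  ⟨by decide +kernel, by decide +kernel⟩

theorem ok8a : ∀ t ∈ ts8a, Task 8 1985229328 gs8 rs8 tr8 t :=
  List.forall_mem_cons.2 ⟨tk8a0,
  List.forall_mem_cons.2 ⟨tk8a1,
  List.forall_mem_cons.2 ⟨tk8a2,
  List.forall_mem_cons.2 ⟨tk8a3,
  List.forall_mem_cons.2 ⟨tk8a4,
  List.forall_mem_cons.2 ⟨tk8a5,
  List.forall_mem_cons.2 ⟨tk8a6,
  List.forall_mem_cons.2 ⟨tk8a7,
  List.forall_mem_cons.2 ⟨tk8a8,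
  List.forall_mem_cons.2 ⟨tk8a9,
  List.forall_mem_cons.2 ⟨tk8a10,
  List.forall_mem_cons.2 ⟨tk8a11,
  List.forall_mem_cons.2 ⟨tk8a12,
  List.forall_mem_cons.2 ⟨tk8a13,
  List.forall_mem_nil _⟩⟩⟩⟩⟩⟩⟩⟩⟩⟩⟩⟩⟩⟩

end Vale.Agent.N258Q
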