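import Vale.Agent.N258Q.G8

/-! Enumeration of colourings. -/

namespace Vale.Agent.N258Q

def ts8b : List (ℕ × Bool × List ℕ × List ℕ × List ℕ) :=
  [(89, false, [0, 2, 1], [1, 0, 1, 2, 0], [1, 2, 0, 0]), (95, false, [0, 1, 2], [0, 2], [2]),
  (101, false, [1, 0, 1, 2], [2, 0], [2, 1, 0, 1]), (108, true, [0, 2], [0, 1, 2], [1, 2, 0]),
  (114, true, [0, 2], [0, 1, 0, 2], [1, 2, 0]), (119, false, [0, 2, 1, 0], [2, 1, 0, 0], [1, 2,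
  2, 2, 0]), (125, false, [2, 0, 1], [2, 0, 0], [0, 1, 2]), (126, true, [1, 2, 0], [1, 0, 1, 2],
  [2]), (132, true, [0, 2, 1, 0], [2, 1, 0, 0], [0, 2, 0, 1, 0]), (137, false, [0, 1, 2], [0,
  2], [2]), (143, false, [1, 0, 1, 2], [2, 0], [2, 1, 0, 1]), (150, true, [0, 2], [0, 1, 2], [1,
  2, 0]), (156, true, [0, 2], [0, 1, 0, 2], [1, 2, 0]), (162, true, [1, 0, 2], [0, 1, 2, 0], [1,
  2, 0, 0])]

theorem tk8b0 : Task 8 1985229328 gs8 rs8 tr8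
    (89, false, [0, 2, 1], [1, 0, 1, 2, 0], [1, 2, 0, 0]) :=
  ⟨by decide +kernel, by decide +kernel⟩

theorem tk8b1 : Task 8 1985229328 gs8 rs8 tr8
    (95, false, [0, 1, 2], [0, 2], [2]) :=
  ⟨by decide +kernel, by decide +kernel⟩

theorem tk8b2 : Task 8 1985229328 gs8 rs8 tr8
    (101, false, [1, 0, 1, 2], [2, 0], [2, 1, 0, 1]) :=
  ⟨by decide +kernel, by decide +kernel⟩

theorem tk8b3 : Task 8 1985229328 gs8 rs8 tr8
    (108, true, [0, 2], [0, 1, 2], [1, 2, 0]) :=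
  ⟨by decide +kernel, by decide +kernel⟩

theorem tk8b4 : Task 8 1985229328 gs8 rs8 tr8
    (114, true, [0, 2], [0, 1, 0, 2], [1, 2, 0]) :=
  ⟨by decide +kernel, by decide +kernel⟩

theorem tk8b5 : Task 8 1985229328 gs8 rs8 tr8
    (119, false, [0, 2, 1, 0], [2, 1, 0, 0], [1, 2, 2, 2, 0]) :=
  ⟨by decide +kernel, by decide +kernel⟩

theorem tk8b6 : Task 8 1985229328 gs8 rs8 tr8
    (125, false, [2, 0, 1], [2, 0, 0], [0, 1, 2]) :=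
  ⟨by decide +kernel, by decide +kernel⟩

theorem tk8b7 : Task 8 1985229328 gs8 rs8 tr8
    (126, true, [1, 2, 0], [1, 0, 1, 2], [2]) :=
  ⟨by decide +kernel, by decide +kernel⟩

theorem tk8b8 : Task 8 1985229328 gs8 rs8 tr8
    (132, true, [0, 2, 1, 0], [2, 1, 0, 0], [0, 2, 0, 1, 0]) :=
  ⟨by decide +kernel, by decide +kernel⟩

theorem tk8b9 : Task 8 1985229328 gs8 rs8 tr8
    (137, false, [0, 1, 2], [0, 2], [2]) :=
  ⟨by decide +kernel, by decide +kernel⟩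

theorem tk8b10 : Task 8 1985229328 gs8 rs8 tr8
    (143, false, [1, 0, 1, 2], [2, 0], [2, 1, 0, 1]) :=
  ⟨by decide +kernel, by decide +kernel⟩

theorem tk8b11 : Task 8 1985229328 gs8 rs8 tr8
    (150, true, [0, 2], [0, 1, 2], [1, 2, 0]) :=
  ⟨by decide +kernel, by decide +kernel⟩

theorem tk8b12 : Task 8 1985229328 gs8 rs8 tr8
    (156, true, [0, 2], [0, 1, 0, 2], [1, 2, 0]) :=
  ⟨by decide +kernel, by decide +kernel⟩

theorem tk8b13 : Task 8 1985229328 gs8 rs8 tr8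
    (162, true, [1, 0, 2], [0, 1, 2, 0], [1, 2, 0, 0]) :=
  ⟨by decide +kernel, by decide +kernel⟩

theorem ok8b : ∀ t ∈ ts8b, Task 8 1985229328 gs8 rs8 tr8 t :=
  List.forall_mem_cons.2 ⟨tk8b0,
  List.forall_mem_cons.2 ⟨tk8b1,
  List.forall_mem_cons.2 ⟨tk8b2,
  List.forall_mem_cons.2 ⟨tk8b3,
  List.forall_mem_cons.2 ⟨tk8b4,
  List.forall_mem_cons.2 ⟨tk8b5,
  List.forall_mem_cons.2 ⟨tk8b6,
  List.forall_mem_cons.2 ⟨tk8b7,
  List.forall_mem_cons.2 ⟨tk8b8,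
  List.forall_mem_cons.2 ⟨tk8b9,
  List.forall_mem_cons.2 ⟨tk8b10,
  List.forall_mem_cons.2 ⟨tk8b11,
  List.forall_mem_cons.2 ⟨tk8b12,
  List.forall_mem_cons.2 ⟨tk8b13,
  List.forall_mem_nil _⟩⟩⟩⟩⟩⟩⟩⟩⟩⟩⟩⟩⟩⟩

end Vale.Agent.N258Q
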