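import Vale.Agent.N258Q.G9

/-! Enumeration of colourings. -/

namespace Vale.Agent.N258Q

def ts9b : List (ℕ × Bool × List ℕ × List ℕ × List ℕ) :=
  [(28, true, [0, 1, 0, 2], [0, 0, 2], [0, 2, 0, 1]), (31, false, [2, 0], [2, 2, 2, 1, 0], [1,
  0, 1, 2]), (35, true, [0, 2, 0, 1], [0, 2, 0], [2, 0, 1, 0]), (37, false, [0, 2, 0, 1], [2,
  0], [0, 1, 0, 2])]

theorem tk9b0 : Task 10 654820258320 gs9 rs9 tr9
    (28, true, [0, 1, 0, 2], [0, 0, 2], [0, 2, 0, 1]) :=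
  ⟨by decide +kernel, by decide +kernel⟩

theorem tk9b1 : Task 10 654820258320 gs9 rs9 tr9
    (31, false, [2, 0], [2, 2, 2, 1, 0], [1, 0, 1, 2]) :=
  ⟨by decide +kernel, by decide +kernel⟩

theorem tk9b2 : Task 10 654820258320 gs9 rs9 tr9
    (35, true, [0, 2, 0, 1], [0, 2, 0], [2, 0, 1, 0]) :=
  ⟨by decide +kernel, by decide +kernel⟩

theorem tk9b3 : Task 10 654820258320 gs9 rs9 tr9
    (37, false, [0, 2, 0, 1], [2, 0], [0, 1, 0, 2]) :=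
  ⟨by decide +kernel, by decide +kernel⟩

theorem ok9b : ∀ t ∈ ts9b, Task 10 654820258320 gs9 rs9 tr9 t :=
  List.forall_mem_cons.2 ⟨tk9b0,
  List.forall_mem_cons.2 ⟨tk9b1,
  List.forall_mem_cons.2 ⟨tk9b2,
  List.forall_mem_cons.2 ⟨tk9b3,
  List.forall_mem_nil _⟩⟩⟩⟩

end Vale.Agent.N258Q
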