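import Vale.Agent.N258Q.G9

/-! Enumeration of colourings. -/

namespace Vale.Agent.N258Q

def ts9d : List (ℕ × Bool × List ℕ × List ℕ × List ℕ) :=
  [(82, true, [0, 2], [0, 2, 0, 1], [2]), (84, false, [0, 2], [1, 0, 1, 2], [2, 2, 2, 1, 0]),
  (88, true, [0, 1, 0, 2], [0, 0, 2], [0, 2, 0, 1]), (91, false, [2, 0], [2, 2, 2, 1, 0], [1, 0,
  1, 2])]

theorem tk9d0 : Task 10 654820258320 gs9 rs9 tr9
    (82, true, [0, 2], [0, 2, 0, 1], [2]) :=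
  ⟨by decide +kernel, by decide +kernel⟩

theorem tk9d1 : Task 10 654820258320 gs9 rs9 tr9
    (84, false, [0, 2], [1, 0, 1, 2], [2, 2, 2, 1, 0]) :=
  ⟨by decide +kernel, by decide +kernel⟩

theorem tk9d2 : Task 10 654820258320 gs9 rs9 tr9
    (88, true, [0, 1, 0, 2], [0, 0, 2], [0, 2, 0, 1]) :=
  ⟨by decide +kernel, by decide +kernel⟩

theorem tk9d3 : Task 10 654820258320 gs9 rs9 tr9
    (91, false, [2, 0], [2, 2, 2, 1, 0], [1, 0, 1, 2]) :=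
  ⟨by decide +kernel, by decide +kernel⟩

theorem ok9d : ∀ t ∈ ts9d, Task 10 654820258320 gs9 rs9 tr9 t :=
  List.forall_mem_cons.2 ⟨tk9d0,
  List.forall_mem_cons.2 ⟨tk9d1,
  List.forall_mem_cons.2 ⟨tk9d2,
  List.forall_mem_cons.2 ⟨tk9d3,
  List.forall_mem_nil _⟩⟩⟩⟩

end Vale.Agent.N258Q
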