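import Vale.Agent.N258Q.G9

/-! Enumeration of colourings. -/

namespace Vale.Agent.N258Q

def ts9e : List (ℕ × Bool × List ℕ × List ℕ × List ℕ) :=
  [(95, true, [0, 2, 0, 1], [0, 2, 0], [2, 0, 1, 0]), (97, false, [0, 2, 0, 1], [2, 0], [0, 1,
  0, 2]), (103, true, [0, 2, 0, 1], [0, 0, 2], [1, 0, 2, 0]), (106, false, [2], [2, 2, 1, 0, 2],
  [0, 2])]

theorem tk9e0 : Task 10 654820258320 gs9 rs9 tr9
    (95, true, [0, 2, 0, 1], [0, 2, 0], [2, 0, 1, 0]) :=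
  ⟨by decide +kernel, by decide +kernel⟩

theorem tk9e1 : Task 10 654820258320 gs9 rs9 tr9
    (97, false, [0, 2, 0, 1], [2, 0], [0, 1, 0, 2]) :=
  ⟨by decide +kernel, by decide +kernel⟩

theorem tk9e2 : Task 10 654820258320 gs9 rs9 tr9
    (103, true, [0, 2, 0, 1], [0, 0, 2], [1, 0, 2, 0]) :=
  ⟨by decide +kernel, by decide +kernel⟩

theorem tk9e3 : Task 10 654820258320 gs9 rs9 tr9
    (106, false, [2], [2, 2, 1, 0, 2], [0, 2]) :=
  ⟨by decide +kernel, by decide +kernel⟩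

theorem ok9e : ∀ t ∈ ts9e, Task 10 654820258320 gs9 rs9 tr9 t :=
  List.forall_mem_cons.2 ⟨tk9e0,
  List.forall_mem_cons.2 ⟨tk9e1,
  List.forall_mem_cons.2 ⟨tk9e2,
  List.forall_mem_cons.2 ⟨tk9e3,
  List.forall_mem_nil _⟩⟩⟩⟩

end Vale.Agent.N258Q
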