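import Vale.Agent.N258Q.GA

/-! Enumeration of colourings. -/

namespace Vale.Agent.N258Q

def tsAa : List (ℕ × Bool × List ℕ × List ℕ × List ℕ) :=
  [(1, false, [0, 1, 1, 1, 0, 0, 1], [1], [1, 0, 1, 0, 0, 1, 0]), (7, true, [1], [0, 0, 1, 1, 1,
  0, 1, 1], [0, 1, 0, 0, 1, 0]), (9, true, [1, 0, 1, 1, 1, 0, 0], [1], [1, 1, 0, 0, 1, 0, 1]),
  (20, false, [0, 1, 0, 0], [1], [0, 1, 0, 1, 1, 1, 0]), (39, true, [1, 0, 1, 1, 1, 0, 0], [1],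
  [1, 1, 0, 0, 1, 0, 1]), (50, false, [0, 1, 0, 0], [1], [0, 1, 0, 1, 1, 1, 0]), (52, false,
  [1], [0, 0, 1, 0, 0, 1], [1, 0, 0, 1, 0, 0]), (58, true, [1], [0, 1, 0, 0, 1, 0], [1, 1, 1, 0,
  1, 0, 0])]

theorem tkAa0 : Task 6 5517840 gsA rsA trA
    (1, false, [0, 1, 1, 1, 0, 0, 1], [1], [1, 0, 1, 0, 0, 1, 0]) :=
  ⟨by decide +kernel, by decide +kernel⟩

theorem tkAa1 : Task 6 5517840 gsA rsA trA
    (7, true, [1], [0, 0, 1, 1, 1, 0, 1, 1], [0, 1, 0, 0, 1, 0]) :=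
  ⟨by decide +kernel, by decide +kernel⟩

theorem tkAa2 : Task 6 5517840 gsA rsA trA
    (9, true, [1, 0, 1, 1, 1, 0, 0], [1], [1, 1, 0, 0, 1, 0, 1]) :=
  ⟨by decide +kernel, by decide +kernel⟩

theorem tkAa3 : Task 6 5517840 gsA rsA trA
    (20, false, [0, 1, 0, 0], [1], [0, 1, 0, 1, 1, 1, 0]) :=
  ⟨by decide +kernel, by decide +kernel⟩

theorem tkAa4 : Task 6 5517840 gsA rsA trA
    (39, true, [1, 0, 1, 1, 1, 0, 0], [1], [1, 1, 0, 0, 1, 0, 1]) :=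
  ⟨by decide +kernel, by decide +kernel⟩

theorem tkAa5 : Task 6 5517840 gsA rsA trA
    (50, false, [0, 1, 0, 0], [1], [0, 1, 0, 1, 1, 1, 0]) :=
  ⟨by decide +kernel, by decide +kernel⟩

theorem tkAa6 : Task 6 5517840 gsA rsA trA
    (52, false, [1], [0, 0, 1, 0, 0, 1], [1, 0, 0, 1, 0, 0]) :=
  ⟨by decide +kernel, by decide +kernel⟩

theorem tkAa7 : Task 6 5517840 gsA rsA trA
    (58, true, [1], [0, 1, 0, 0, 1, 0], [1, 1, 1, 0, 1, 0, 0]) :=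
  ⟨by decide +kernel, by decide +kernel⟩

theorem okAa : ∀ t ∈ tsAa, Task 6 5517840 gsA rsA trA t :=
  List.forall_mem_cons.2 ⟨tkAa0,
  List.forall_mem_cons.2 ⟨tkAa1,
  List.forall_mem_cons.2 ⟨tkAa2,
  List.forall_mem_cons.2 ⟨tkAa3,
  List.forall_mem_cons.2 ⟨tkAa4,
  List.forall_mem_cons.2 ⟨tkAa5,
  List.forall_mem_cons.2 ⟨tkAa6,
  List.forall_mem_cons.2 ⟨tkAa7,
  List.forall_mem_nil _⟩⟩⟩⟩⟩⟩⟩⟩

end Vale.Agent.N258Q
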