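import Vale.Agent.N258Q.Perm
import Vale.Agent.N258B.Fin
import Vale.Agent.N258B.Defs3
import Vale.Agent.N258Q.T5a
import Vale.Agent.N258Q.T6a
import Vale.Agent.N258Q.T6b
import Vale.Agent.N258Q.T7a
import Vale.Agent.N258Q.T7b
import Vale.Agent.N258Q.T7c
import Vale.Agent.N258Q.T7d
import Vale.Agent.N258Q.T7e
import Vale.Agent.N258Q.T7f
import Vale.Agent.N258Q.T8a
import Vale.Agent.N258Q.T8b
import Vale.Agent.N258Q.T9a
import Vale.Agent.N258Q.T9b
import Vale.Agent.N258Q.T9c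
import Vale.Agent.N258Q.T9d
import Vale.Agent.N258Q.T9e
import Vale.Agent.N258Q.TAa

/-! The family `fam n` for all odd `n` outside six residue classes modulo 840. -/

namespace Vale.Agent.N258Q

open Vale.Agent.P258.Braid Vale.Agent.N258B
open Vale.Agent.P258.Seven (G7 pow84)

/-- the words that act as `fam n ++ turn` on rows coloured by `G` give knots for which the slopes
`2` and `-2` modulo `840` are separated -/
def SepBy (G : Type) [Group G] (N : ℕ) (n : ℤ) : Prop :=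
  ∀ (o : ℕ) (w : Word), (∀ x ∈ w, x.1 + 1 < 2 * 3 + o) →
    Equiv (2 * 3 + o) G N (fam n ++ turn) w → ∀ e ν, Framed 3 o w e ν →
      ∀ p r : ℤ, 840 ∣ p - 2 → 840 ∣ r + 2 → Distinct (Surgery ν p) (Surgery ν r)

theorem sep_fam {G : Type} [Group G] {N : ℕ} (hN : ∀ g : G, g ^ N = 1) (h8 : N ∣ 840)
    {r : ℕ} {m : ℤ} (hr : (840 : ℤ) ∣ r - m)
    (hne : caps6.homCount G (fam (2 * ((r % N : ℕ) : ℤ) + 1)) 2 1 ≠
      caps6.homCount G (fam (2 * ((r % N : ℕ) : ℤ) + 1)) (-2) 1) : SepBy G N (2 * m + 1) := by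
  intro o w hw hE e ν hF p q hp hq
  have h9 : (N : ℤ) ∣ 840 := Int.natCast_dvd_natCast.2 h8
  have hG : Equiv (2 * 3 + o) G N (fam (2 * ((r % N : ℕ) : ℤ) + 1)) (fam (2 * m + 1)) := by
    refine fam_equiv hN ?_
    rw [show 2 * ((r % N : ℕ) : ℤ) + 1 - (2 * m + 1) = 2 * ((((r % N : ℕ) : ℤ) - r) + (r - m)) by
      ring, Int.natCast_mod]
    exact mul_dvd_mul_left 2 (Int.dvd_emod_sub_self.add (h9.trans hr))
  have := nonempty_surgery ν p
  have key : ∀ x y, IsEmpty (FundamentalGroup (Surgery ν p) x ≃*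
      FundamentalGroup (Surgery ν q) y) :=
    separated hN ⟨_, rfl⟩ hw (equiv_trans
      ⟨hG.1.append (Same.refl' _), hG.2.append (Same.refl' _)⟩ hE) hne hF (h9.trans hp)
      (h9.trans hq)
  exact ⟨key, isEmpty_homotopyEquiv key⟩

theorem of_tasks {G : Type} [Group G] [Finite G] {s o N : ℕ} {gs rs : List ℕ} {T : Tr}
    (C : Cod G s o gs) (hc : chk s o N gs rs T = true) (hN : N < 4096 ∧ N ∣ 840)
    {ts : List (ℕ × Bool × List ℕ × List ℕ × List ℕ)} (ht : ∀ t ∈ ts, Task s o gs rs T t)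
    {r : ℕ} {m : ℤ} (hr : (840 : ℤ) ∣ r - m) (h : r % N ∈ ts.map Prod.fst) :
    SepBy G N (2 * m + 1) := by
  obtain ⟨t, h1, h2⟩ := List.mem_map.1 h
  exact sep_fam (C.pow_eq hc hN.1) hN.2 hr (h2 ▸ C.sep hc (ht t h1))

/-- generators -/
def ps5 : List (Equiv.Perm (Fin 5)) :=
  [⟨![1, 0, 2, 3, 4], ![1, 0, 2, 3, 4], by decide, by decide⟩,
   ⟨![1, 2, 3, 4, 0], ![4, 0, 1, 2, 3], by decide, by decide⟩]

/-- generators -/
def ps6 : List (Equiv.Perm (Fin 6)) :=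
  [⟨![1, 0, 2, 3, 4, 5], ![1, 0, 2, 3, 4, 5], by decide, by decide⟩,
   ⟨![1, 2, 3, 4, 5, 0], ![5, 0, 1, 2, 3, 4], by decide, by decide⟩]

/-- generators -/
def ps7 : List (Equiv.Perm (Fin 7)) :=
  [⟨![1, 2, 0, 3, 4, 5, 6], ![2, 0, 1, 3, 4, 5, 6], by decide, by decide⟩,
   ⟨![1, 2, 3, 4, 5, 6, 0], ![6, 0, 1, 2, 3, 4, 5], by decide, by decide⟩]

/-- generators -/
def ps8 : List (Equiv.Perm (Fin 8)) :=
  [⟨![1, 2, 3, 4, 5, 6, 0, 7], ![6, 0, 1, 2, 3, 4, 5, 7], by decide, by decide⟩,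
   ⟨![7, 6, 3, 2, 5, 4, 1, 0], ![7, 6, 3, 2, 5, 4, 1, 0], by decide, by decide⟩,
   ⟨![0, 3, 6, 2, 5, 1, 4, 7], ![0, 5, 3, 1, 6, 4, 2, 7], by decide, by decide⟩]

/-- generators -/
def ps9 : List (Equiv.Perm (Fin 10)) :=
  [⟨![1, 2, 0, 4, 5, 3, 7, 8, 6, 9], ![2, 0, 1, 5, 3, 4, 8, 6, 7, 9], by decide, by decide⟩,
   ⟨![9, 2, 1, 3, 7, 8, 6, 4, 5, 0], ![9, 2, 1, 3, 7, 8, 6, 4, 5, 0], by decide, by decide⟩,
   ⟨![0, 4, 8, 5, 6, 1, 7, 2, 3, 9], ![0, 5, 7, 8, 1, 3, 4, 6, 2, 9], by decide, by decide⟩]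

/-- generators -/
def psA : List (Equiv.Perm (Fin 6)) :=
  [⟨![1, 2, 0, 3, 4, 5], ![2, 0, 1, 3, 4, 5], by decide, by decide⟩,
   ⟨![0, 2, 3, 4, 5, 1], ![0, 5, 1, 2, 3, 4], by decide, by decide⟩]

/-- codes -/
def cd5 : Cod (Gen ps5) 5 274960 gs5 :=
  cod (by norm_num) ps5 (by decide +kernel) (by decide +kernel)

theorem pow5 (g : Gen ps5) : g ^ 60 = 1 := cd5.pow_eq chk5 (by norm_num) g

/-- codes -/
def cd6 : Cod (Gen ps6) 6 5517840 gs6 :=
  cod (by norm_num) ps6 (by decide +kernel) (by decide +kernel)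

theorem pow6 (g : Gen ps6) : g ^ 60 = 1 := cd6.pow_eq chk6 (by norm_num) g

/-- codes -/
def cd7 : Cod (Gen ps7) 7 106181136 gs7 :=
  cod (by norm_num) ps7 (by decide +kernel) (by decide +kernel)

theorem pow7 (g : Gen ps7) : g ^ 420 = 1 := cd7.pow_eq chk7 (by norm_num) g

/-- codes -/
def cd8 : Cod (Gen ps8) 8 1985229328 gs8 :=
  cod (by norm_num) ps8 (by decide +kernel) (by decide +kernel)

theorem pow8 (g : Gen ps8) : g ^ 168 = 1 := cd8.pow_eq chk8 (by norm_num) g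

/-- codes -/
def cd9 : Cod (Gen ps9) 10 654820258320 gs9 :=
  cod (by norm_num) ps9 (by decide +kernel) (by decide +kernel)

theorem pow9 (g : Gen ps9) : g ^ 120 = 1 := cd9.pow_eq chk9 (by norm_num) g

/-- codes -/
def cdA : Cod (Gen psA) 6 5517840 gsA :=
  cod (by norm_num) psA (by decide +kernel) (by decide +kernel)

theorem powA (g : Gen psA) : g ^ 60 = 1 := cdA.pow_eq chkA (by norm_num) g

/-- moduli and residues -/
def cv : List (ℕ × List ℕ) :=
  [(84, classes), (60, ts5a.map Prod.fst), (60, tsAa.map Prod.fst),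
   (60, ts6a.map Prod.fst), (60, ts6b.map Prod.fst), (120, ts9a.map Prod.fst),
   (120, ts9b.map Prod.fst), (120, ts9c.map Prod.fst), (120, ts9d.map Prod.fst),
   (120, ts9e.map Prod.fst), (168, ts8a.map Prod.fst), (168, ts8b.map Prod.fst),
   (420, ts7a.map Prod.fst), (420, ts7b.map Prod.fst), (420, ts7c.map Prod.fst),
   (420, ts7d.map Prod.fst), (420, ts7e.map Prod.fst), (420, ts7f.map Prod.fst)]

theorem cover : ∀ r < 840, (2 * r + 1) % 840 ∉ [1, 121, 361, 479, 719, 839] →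
    ∃ e ∈ cv, r % e.1 ∈ e.2 := by
  decide +kernel

theorem sep_one (n : ℤ) (hn : Odd n) (h : n % 840 ∉ [1, 121, 361, 479, 719, 839]) :
    SepBy G7 84 n ∨ SepBy (Gen ps5) 60 n ∨ SepBy (Gen psA) 60 n ∨ SepBy (Gen ps6) 60 n ∨
      SepBy (Gen ps9) 120 n ∨ SepBy (Gen ps8) 168 n ∨ SepBy (Gen ps7) 420 n := by
  obtain ⟨m, rfl⟩ := hn
  obtain ⟨r, hr⟩ : ∃ r : ℕ, (r : ℤ) = m % 840 := Int.eq_ofNat_of_zero_le
    (Int.emod_nonneg m (by norm_num)) |>.imp fun _ h => h.symm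
  have h1 : (840 : ℤ) ∣ r - m := by omega
  obtain ⟨e, he, h2⟩ := cover r (by omega) (by
    simp only [List.mem_cons, List.not_mem_nil, or_false] at h ⊢
    omega)
  simp only [cv, List.mem_cons, List.not_mem_nil, or_false] at he
  rcases he with rfl | rfl | rfl | rfl | rfl | rfl | rfl | rfl | rfl |
    rfl | rfl | rfl | rfl | rfl | rfl | rfl | rfl | rfl
  · exact .inl (sep_fam pow84 (by norm_num) h1 (sep_all _ h2))
  · exact .inr <| .inl <|
      of_tasks cd5 chk5 (by norm_num) ok5a h1 h2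
  · exact .inr <| .inr <| .inl <|
      of_tasks cdA chkA (by norm_num) okAa h1 h2
  · exact .inr <| .inr <| .inr <| .inl <|
      of_tasks cd6 chk6 (by norm_num) ok6a h1 h2
  · exact .inr <| .inr <| .inr <| .inl <|
      of_tasks cd6 chk6 (by norm_num) ok6b h1 h2
  · exact .inr <| .inr <| .inr <| .inr <| .inl <|
      of_tasks cd9 chk9 (by norm_num) ok9a h1 h2
  · exact .inr <| .inr <| .inr <| .inr <| .inl <|
      of_tasks cd9 chk9 (by norm_num) ok9b h1 h2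
  · exact .inr <| .inr <| .inr <| .inr <| .inl <|
      of_tasks cd9 chk9 (by norm_num) ok9c h1 h2
  · exact .inr <| .inr <| .inr <| .inr <| .inl <|
      of_tasks cd9 chk9 (by norm_num) ok9d h1 h2
  · exact .inr <| .inr <| .inr <| .inr <| .inl <|
      of_tasks cd9 chk9 (by norm_num) ok9e h1 h2
  · exact .inr <| .inr <| .inr <| .inr <| .inr <| .inl <|
      of_tasks cd8 chk8 (by norm_num) ok8a h1 h2
  · exact .inr <| .inr <| .inr <| .inr <| .inr <| .inl <|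
      of_tasks cd8 chk8 (by norm_num) ok8b h1 h2
  · exact .inr <| .inr <| .inr <| .inr <| .inr <| .inr <|
      of_tasks cd7 chk7 (by norm_num) ok7a h1 h2
  · exact .inr <| .inr <| .inr <| .inr <| .inr <| .inr <|
      of_tasks cd7 chk7 (by norm_num) ok7b h1 h2
  · exact .inr <| .inr <| .inr <| .inr <| .inr <| .inr <|
      of_tasks cd7 chk7 (by norm_num) ok7c h1 h2
  · exact .inr <| .inr <| .inr <| .inr <| .inr <| .inr <|
      of_tasks cd7 chk7 (by norm_num) ok7d h1 h2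
  · exact .inr <| .inr <| .inr <| .inr <| .inr <| .inr <|
      of_tasks cd7 chk7 (by norm_num) ok7e h1 h2
  · exact .inr <| .inr <| .inr <| .inr <| .inr <| .inr <|
      of_tasks cd7 chk7 (by norm_num) ok7f h1 h2

end Vale.Agent.N258Q
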