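import Vale.Agent.N258Q.Code

/-! The elements and the classes of a group of order 120. -/

namespace Vale.Agent.N258Q

def gs5 : List ℕ := [274945, 17185]

def rs5 : List ℕ := [17185, 5170, 197140]

def tr5_1 : Tr :=
  (.nd (.nd (.nd (.nd (.nd (.nd (.nd .nil 4660 15 .nil) 4675 15 (.nd .nil 4900 97 .nil)) 4930 96
  (.nd (.nd .nil 5155 224 .nil) 5170 17 (.nd .nil 8500 225 .nil))) 8515 288 (.nd (.nd (.nd .nil
  8980 15 .nil) 9025 209 (.nd .nil 9235 15 .nil)) 9265 80 (.nd (.nd .nil 12580 15 .nil) 12610 15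
  (.nd .nil 12820 15 .nil)))) 12865 82 (.nd (.nd (.nd (.nd .nil 13330 290 .nil) 13345 15 (.nd
  .nil 16675 161 .nil)) 16690 48 (.nd (.nd .nil 16915 322 .nil) 16945 15 (.nd .nil 17170 15
  .nil))) 17185 16 (.nd (.nd (.nd .nil 66100 15 .nil) 66115 15 (.nd .nil 66340 144 .nil)) 66370
  65 (.nd (.nd .nil 66595 33 .nil) 66610 304 .nil)))) 73780 256 (.nd (.nd (.nd (.nd (.nd .nil
  73795 193 .nil) 74500 257 (.nd .nil 74560 15 .nil)) 74755 112 (.nd (.nd .nil 74800 15 .nil)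
  77860 15 (.nd .nil 77890 15 .nil))) 78340 50 (.nd (.nd (.nd .nil 78400 15 .nil) 78850 15 (.nd
  .nil 78880 242 .nil)) 81955 64 (.nd (.nd .nil 81970 113 .nil) 82435 15 .nil))) 82480 306 (.nd
  (.nd (.nd (.nd .nil 82690 32 .nil) 82720 15 (.nd .nil 131380 272 .nil)) 131395 129 (.nd (.nd
  .nil 131860 15 .nil) 131905 320 (.nd .nil 132115 15 .nil))) 132145 49 (.nd (.nd (.nd .nil
  135220 177 .nil) 135235 352 (.nd .nil 135940 336 .nil)) 136000 15 (.nd (.nd .nil 136195 81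
  .nil) 136240 15 .nil))))) 143380 66 (.nd (.nd (.nd (.nd (.nd (.nd .nil 143425 15 .nil) 143620
  15 (.nd .nil 143680 114 .nil)) 144385 15 (.nd (.nd .nil 144400 15 .nil) 147475 15 (.nd .nil
  147505 160 .nil))) 147715 208 (.nd (.nd (.nd .nil 147760 15 .nil) 148225 145 (.nd .nil 148240
  274 .nil)) 196900 305 (.nd (.nd .nil 196930 176 .nil) 197140 18 .nil))) 197185 15 (.nd (.nd
  (.nd (.nd .nil 197650 15 .nil) 197665 128 (.nd .nil 200740 240 .nil)) 200770 241 (.nd (.nd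
  .nil 201220 15 .nil) 201280 34 (.nd .nil 201730 192 .nil))) 201760 15 (.nd (.nd (.nd .nil
  204820 15 .nil) 204865 368 (.nd .nil 205060 384 .nil)) 205120 15 (.nd (.nd .nil 205825 289
  .nil) 205840 226 .nil)))) 213010 15 (.nd (.nd (.nd (.nd (.nd .nil 213025 273 .nil) 213250 321
  (.nd .nil 213280 15 .nil)) 213505 15 (.nd (.nd .nil 213520 15 .nil) 262435 15 (.nd .nil 262450
  15 .nil))) 262675 15 (.nd (.nd (.nd .nil 262705 194 .nil) 262930 258 (.nd .nil 262945 15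
  .nil)) 266275 15 (.nd (.nd .nil 266290 15 .nil) 266755 130 .nil))) 266800 15 (.nd (.nd (.nd
  (.nd .nil 267010 15 .nil) 267040 210 (.nd .nil 270355 178 .nil)) 270385 15 (.nd (.nd .nil
  270595 15 .nil) 270640 162 (.nd .nil 271105 15 .nil))) 271120 15 (.nd (.nd (.nd .nil 274450 15
  .nil) 274465 146 (.nd .nil 274690 98 .nil)) 274720 15 (.nd (.nd .nil 274945 15 .nil) 274960 15
  .nil))))))

def tr5 : Tr :=
  tr5_1

theorem chk5 : chk 5 274960 60 gs5 rs5 tr5 = true := by decide +kernel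

end Vale.Agent.N258Q
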