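import Vale.Agent.N258Q.Code

/-! The elements and the classes of a group of order 360. -/

namespace Vale.Agent.N258Q

def gsA : List ℕ := [5517345, 1393440]

def rsA : List ℕ := [5517345, 1393440, 2184240, 1070130]

def trA_1 : Tr :=
  (.nd (.nd (.nd (.nd (.nd (.nd (.nd (.nd .nil 74580 15 .nil) 74805 15 .nil) 75075 15 (.nd (.nd
  .nil 78405 15 .nil) 78930 962 .nil)) 79140 82 (.nd (.nd (.nd .nil 82515 497 .nil) 82725 15
  .nil) 83250 275 (.nd (.nd .nil 86580 913 .nil) 86850 15 .nil))) 87075 51 (.nd (.nd (.nd (.nd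
  .nil 136005 15 .nil) 136275 15 .nil) 136500 15 (.nd (.nd .nil 143700 1137 .nil) 144405 15
  .nil)) 144705 337 (.nd (.nd (.nd .nil 147765 15 .nil) 148305 131 .nil) 148755 658 (.nd .nil
  151875 67 .nil)))) 152340 34 (.nd (.nd (.nd (.nd (.nd .nil 152625 15 .nil) 201300 770 .nil)
  201765 15 (.nd (.nd .nil 202050 419 .nil) 205125 15 .nil)) 205905 339 (.nd (.nd (.nd .nil
  206100 1073 .nil) 213330 15 .nil) 213525 15 (.nd (.nd .nil 214305 15 .nil) 217380 15 .nil)))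
  217665 1026 (.nd (.nd (.nd (.nd .nil 218130 721 .nil) 266805 15 .nil) 267090 561 (.nd (.nd
  .nil 267555 625 .nil) 270675 258 .nil)) 271125 15 (.nd (.nd (.nd .nil 271665 978 .nil) 274725
  15 .nil) 275025 544 (.nd .nil 275730 304 .nil))))) 282930 386 (.nd (.nd (.nd (.nd (.nd (.nd
  .nil 283155 560 .nil) 283425 209 .nil) 332355 290 (.nd (.nd .nil 332580 259 .nil) 332850 15
  .nil)) 336180 515 (.nd (.nd (.nd .nil 336705 15 .nil) 336915 161 .nil) 340290 225 (.nd (.nd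
  .nil 340500 128 .nil) 341025 194 .nil))) 344355 15 (.nd (.nd (.nd (.nd .nil 344625 49 .nil)
  344850 706 .nil) 1057605 15 (.nd (.nd .nil 1057875 15 .nil) 1058100 15 .nil)) 1061460 15 (.nd
  (.nd (.nd .nil 1061925 113 .nil) 1062210 993 .nil) 1065525 866 (.nd .nil 1065810 15 .nil))))
  1066275 227 (.nd (.nd (.nd (.nd (.nd .nil 1069635 50 .nil) 1069860 15 .nil) 1070130 19 (.nd
  (.nd .nil 1180500 15 .nil) 1180725 15 .nil)) 1180995 15 (.nd (.nd (.nd .nil 1192005 130 .nil)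
  1193040 15 .nil) 1193220 482 (.nd .nil 1196115 15 .nil))) 1196805 387 (.nd (.nd (.nd (.nd .nil
  1197360 177 .nil) 1200180 99 .nil) 1200960 529 (.nd (.nd .nil 1201155 15 .nil) 1245765 785
  .nil)) 1246290 15 (.nd (.nd (.nd .nil 1246500 435 .nil) 1253460 15 .nil) 1254405 531 (.nd .nil
  1254720 322 .nil)))))) 1261605 15 (.nd (.nd (.nd (.nd (.nd (.nd (.nd .nil 1262160 15 .nil)
  1262850 15 .nil) 1265730 15 (.nd (.nd .nil 1266180 289 .nil) 1266720 738 .nil)) 1311315 15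
  (.nd (.nd (.nd .nil 1311525 546 .nil) 1312050 210 .nil) 1318965 241 (.nd (.nd .nil 1319760 15
  .nil) 1320195 385 .nil))) 1323090 15 (.nd (.nd (.nd (.nd .nil 1323525 240 .nil) 1324320 368
  .nil) 1331235 145 (.nd (.nd .nil 1331760 352 .nil) 1331970 354 .nil)) 1376820 65 (.nd (.nd
  (.nd .nil 1377090 579 .nil) 1377315 15 .nil) 1384515 371 (.nd .nil 1385220 15 .nil)))) 1385520
  466 (.nd (.nd (.nd (.nd (.nd .nil 1388580 338 .nil) 1389120 224 .nil) 1389570 81 (.nd (.nd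
  .nil 1392690 15 .nil) 1393155 930 .nil)) 1393440 17 (.nd (.nd (.nd .nil 2102100 15 .nil)
  2102325 15 .nil) 2102595 15 (.nd .nil 2109765 754 .nil))) 2110545 226 (.nd (.nd (.nd (.nd .nil
  2110740 15 .nil) 2113875 483 .nil) 2114325 305 (.nd (.nd .nil 2114865 15 .nil) 2117940 15
  .nil)) 2118465 163 (.nd (.nd (.nd .nil 2118675 689 .nil) 2163525 15 .nil) 2163795 15 (.nd .nil
  2164020 15 .nil))))) 2175060 193 (.nd (.nd (.nd (.nd (.nd (.nd .nil 2176005 1089 .nil) 2176320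
  15 .nil) 2179125 83 (.nd (.nd .nil 2179920 1058 .nil) 2180355 15 .nil)) 2183235 15 (.nd (.nd
  (.nd .nil 2183940 35 .nil) 2184240 18 .nil) 2294100 595 (.nd (.nd .nil 2294805 514 .nil)
  2295105 15 .nil))) 2297925 211 (.nd (.nd (.nd (.nd .nil 2298960 945 .nil) 2299140 15 .nil)
  2310225 15 (.nd (.nd .nil 2310405 15 .nil) 2311440 15 .nil)) 2314260 850 (.nd (.nd (.nd .nil
  2314560 465 .nil) 2315265 15 .nil) 2359605 353 (.nd .nil 2360145 401 .nil)))) 2360595 15 (.nd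
  (.nd (.nd (.nd (.nd .nil 2363475 818 .nil) 2364165 146 .nil) 2364720 15 (.nd (.nd .nil 2371605
  496 .nil) 2371920 384 .nil)) 2372865 15 (.nd (.nd (.nd .nil 2379825 257 .nil) 2380035 562
  .nil) 2380560 448 (.nd .nil 2425155 15 .nil))) 2425620 722 (.nd (.nd (.nd (.nd .nil 2425905
  147 .nil) 2428980 15 .nil) 2429760 97 (.nd (.nd .nil 2429955 403 .nil) 2437185 114 .nil))
  2437380 129 (.nd (.nd (.nd .nil 2438160 208 .nil) 2441235 33 .nil) 2441520 1106 (.nd .nil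
  2441985 15 .nil)))))))

def trA_2 : Tr :=
  (.nd (.nd (.nd (.nd (.nd (.nd (.nd (.nd .nil 3150930 307 .nil) 3151140 15 .nil) 3154260 15
  (.nd (.nd .nil 3154965 1010 .nil) 3155265 323 .nil)) 3162405 15 (.nd (.nd (.nd .nil 3162705
  1041 .nil) 3163410 162 .nil) 3166530 15 (.nd (.nd .nil 3166740 15 .nil) 3167265 15 .nil)))
  3211860 1122 (.nd (.nd (.nd (.nd .nil 3212325 179 .nil) 3212610 15 .nil) 3219525 15 (.nd (.nd
  .nil 3220560 1105 .nil) 3220740 115 .nil)) 3227730 15 (.nd (.nd (.nd .nil 3228165 66 .nil)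
  3228960 801 .nil) 3231780 15 (.nd .nil 3232320 15 .nil)))) 3232770 15 (.nd (.nd (.nd (.nd (.nd
  .nil 3277125 195 .nil) 3277905 15 .nil) 3278100 705 (.nd (.nd .nil 3280980 291 .nil) 3281925
  15 .nil)) 3282240 1154 (.nd (.nd (.nd .nil 3293205 897 .nil) 3293520 98 .nil) 3294465 15 (.nd
  .nil 3297345 15 .nil))) 3297540 15 (.nd (.nd (.nd (.nd .nil 3298320 15 .nil) 3408210 977 .nil)
  3408405 176 (.nd (.nd .nil 3409185 242 .nil) 3412005 402 .nil)) 3412560 320 (.nd (.nd (.nd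
  .nil 3413250 545 .nil) 3416145 626 .nil) 3416325 817 (.nd .nil 3417360 464 .nil))))) 3428370
  15 (.nd (.nd (.nd (.nd (.nd (.nd .nil 3428640 15 .nil) 3428865 15 .nil) 3473700 15 (.nd (.nd
  .nil 3473985 769 .nil) 3474450 306 .nil)) 3477570 15 (.nd (.nd (.nd .nil 3478020 498 .nil)
  3478560 321 .nil) 3481620 513 (.nd (.nd .nil 3481920 178 .nil) 3482625 15 .nil))) 3489825 499
  (.nd (.nd (.nd (.nd .nil 3490050 243 .nil) 3490320 336 .nil) 4198995 1025 (.nd (.nd .nil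
  4199205 467 .nil) 4199730 15 .nil)) 4202805 627 (.nd (.nd (.nd .nil 4203345 15 .nil) 4203795
  898 .nil) 4206930 1090 (.nd .nil 4207125 416 .nil)))) 4207905 961 (.nd (.nd (.nd (.nd (.nd
  .nil 4215075 15 .nil) 4215345 786 .nil) 4215570 657 (.nd (.nd .nil 4260405 1042 .nil) 4260690
  643 .nil)) 4261155 15 (.nd (.nd (.nd .nil 4268115 563 .nil) 4268805 15 .nil) 4269360 737 (.nd
  .nil 4272165 481 .nil))) 4272720 432 (.nd (.nd (.nd (.nd .nil 4273410 1138 .nil) 4280370 15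
  .nil) 4280835 865 (.nd (.nd .nil 4281120 946 .nil) 4325715 15 .nil)) 4326165 849 (.nd (.nd
  (.nd .nil 4326705 355 .nil) 4329525 15 .nil) 4330320 802 (.nd .nil 4330755 547 .nil))))))
  4337745 753 (.nd (.nd (.nd (.nd (.nd (.nd (.nd .nil 4337925 994 .nil) 4338960 528 .nil)
  4345875 1074 (.nd (.nd .nil 4346160 1057 .nil) 4346625 15 .nil)) 4391205 15 (.nd (.nd (.nd
  .nil 4391505 914 .nil) 4392210 1009 .nil) 4395090 15 (.nd (.nd .nil 4395525 1121 .nil) 4396320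
  530 .nil))) 4399125 690 (.nd (.nd (.nd (.nd .nil 4399440 1153 .nil) 4400385 15 .nil) 4411425
  611 (.nd (.nd .nil 4411650 451 .nil) 4411920 272 .nil)) 4522290 15 (.nd (.nd (.nd .nil 4522515
  15 .nil) 4522785 15 .nil) 4526115 15 (.nd .nil 4526640 15 .nil)))) 4526850 15 (.nd (.nd (.nd
  (.nd (.nd .nil 4530225 15 .nil) 4530435 15 .nil) 4530960 15 (.nd (.nd .nil 4534290 15 .nil)
  4534560 15 .nil)) 4534785 15 (.nd (.nd (.nd .nil 5247540 15 .nil) 5247810 418 .nil) 5248035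
  370 (.nd .nil 5251395 881 .nil))) 5251860 15 (.nd (.nd (.nd (.nd .nil 5252145 577 .nil)
  5255460 15 .nil) 5255745 160 (.nd (.nd .nil 5256210 576 .nil) 5259570 641 .nil)) 5259795 64
  (.nd (.nd (.nd .nil 5260065 450 .nil) 5308995 15 .nil) 5309220 273 (.nd .nil 5309490 433
  .nil))))) 5316660 594 (.nd (.nd (.nd (.nd (.nd (.nd .nil 5317440 15 .nil) 5317635 610 .nil)
  5320770 15 (.nd (.nd .nil 5321220 640 .nil) 5321760 288 .nil)) 5324835 578 (.nd (.nd (.nd .nil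
  5325360 112 .nil) 5325570 369 .nil) 5374260 834 (.nd (.nd .nil 5374785 642 .nil) 5374995 15
  .nil))) 5378115 449 (.nd (.nd (.nd (.nd .nil 5378820 673 .nil) 5379120 15 .nil) 5386260 96
  (.nd (.nd .nil 5386560 480 .nil) 5387265 15 .nil)) 5390385 274 (.nd (.nd (.nd .nil 5390595 593
  .nil) 5391120 192 .nil) 5439810 674 (.nd .nil 5440020 256 .nil)))) 5440545 417 (.nd (.nd (.nd
  (.nd (.nd .nil 5443620 609 .nil) 5444160 400 .nil) 5444610 882 (.nd (.nd .nil 5447745 833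
  .nil) 5447940 434 .nil)) 5448720 144 (.nd (.nd (.nd .nil 5455890 15 .nil) 5456160 15 .nil)
  5456385 15 (.nd .nil 5505315 15 .nil))) 5505585 592 (.nd (.nd (.nd (.nd .nil 5505810 32 .nil)
  5509170 15 .nil) 5509635 48 (.nd (.nd .nil 5509920 512 .nil) 5513235 608 .nil)) 5513520 80
  (.nd (.nd (.nd .nil 5513985 15 .nil) 5517345 16 .nil) 5517570 624 (.nd .nil 5517840 15
  .nil)))))))

def trA : Tr :=
  (.nd trA_1 3150405 929 trA_2)

theorem chkA : chk 6 5517840 60 gsA rsA trA = true := by decide +kernel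

end Vale.Agent.N258Q
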