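import Vale.Agent.N258Q.Sound

/-! Codes for groups of permutations. -/

namespace Vale.Agent.N258Q

open Vale.Agent.P258.Second (force force_eq)

theorem dg_eq (x i : ℕ) : dg x i = x / 16 ^ i % 16 := by
  change (x >>> (4 * i)) &&& (2 ^ 4 - 1) = _
  rw [Nat.and_two_pow_sub_one_eq_mod, Nat.shiftRight_eq_div_pow, pow_mul]
  rfl

theorem sm_eq (f : ℕ → ℕ) : ∀ k, sm f k = ∑ i ∈ Finset.range k, f i
  | 0 => rfl
  | k + 1 => by rw [Finset.sum_range_succ, ← sm_eq f k]; rfl

theorem shl_eq (a i : ℕ) : Nat.shiftLeft a (Nat.mul 4 i) = a * 16 ^ i := by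
  change a <<< (4 * i) = _
  rw [Nat.shiftLeft_eq, pow_mul]
  rfl

theorem sum_lt (f : ℕ → ℕ) (hf : ∀ i, f i < 16) :
    ∀ k, ∑ i ∈ Finset.range k, f i * 16 ^ i < 16 ^ k
  | 0 => by simp
  | k + 1 => by
    have h1 := sum_lt f hf k
    have h2 : f k * 16 ^ k ≤ 15 * 16 ^ k := Nat.mul_le_mul_right _ (Nat.le_of_lt_succ (hf k))
    rw [Finset.sum_range_succ, pow_succ]
    omega

theorem dg_sum (f : ℕ → ℕ) (hf : ∀ i, f i < 16) :
    ∀ k j, j < k → dg (∑ i ∈ Finset.range k, f i * 16 ^ i) j = f j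
  | 0, _, h => absurd h (Nat.not_lt_zero _)
  | k + 1, j, h => by
    rw [Finset.sum_range_succ]
    rcases Nat.lt_succ_iff_lt_or_eq.1 h with h | rfl
    · rw [← dg_sum f hf k j h, dg_eq, dg_eq]
      obtain ⟨m, rfl⟩ := Nat.exists_eq_add_of_lt h
      rw [show f (j + m + 1) * 16 ^ (j + m + 1) = 16 ^ j * (16 * (f (j + m + 1) * 16 ^ m)) by ring,
        Nat.add_mul_div_left _ _ (by positivity), Nat.add_mul_mod_self_left]
    · rw [dg_eq, Nat.add_mul_div_right _ _ (by positivity), Nat.div_eq_of_lt (sum_lt f hf j),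
        zero_add, Nat.mod_eq_of_lt (hf j)]

variable {s : ℕ}

/-- the code of a permutation -/
def code (σ : Equiv.Perm (Fin s)) : ℕ := ∑ i : Fin s, (σ i).val * 16 ^ i.val

theorem dg_code (hs : s ≤ 16) (σ : Equiv.Perm (Fin s)) (j : Fin s) : dg (code σ) j = σ j := by
  have h := dg_sum (fun i => if h : i < s then (σ ⟨i, h⟩).val else 0) (fun i => by
    split_ifs with h
    · exact lt_of_lt_of_le (σ _).2 hs
    · norm_num) s j j.2
  rw [Finset.sum_range] at h
  simpa [code] using h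

theorem code_mul (hs : s ≤ 16) (σ τ : Equiv.Perm (Fin s)) :
    mul s (code σ) (code τ) = code (σ * τ) := by
  rw [mul, force_eq, force_eq, sm_eq, Finset.sum_range]
  refine Finset.sum_congr rfl fun i _ => ?_
  rw [shl_eq, dg_code hs, dg_code hs]
  rfl

theorem code_inv (hs : s ≤ 16) (σ : Equiv.Perm (Fin s)) : inv s (code σ) = code σ⁻¹ := by
  rw [inv, force_eq, sm_eq, Finset.sum_range]
  refine Eq.trans (Finset.sum_congr rfl fun i _ => ?_)
    (Equiv.sum_comp σ fun j => (σ⁻¹ j).val * 16 ^ j.val)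
  rw [shl_eq, dg_code hs]
  simp

theorem code_inj (hs : s ≤ 16) : Function.Injective (code (s := s)) := fun σ τ h =>
  Equiv.ext fun i => Fin.ext (by rw [← dg_code hs, h, dg_code hs])

/-- the group generated by a list of permutations -/
abbrev Gen (ps : List (Equiv.Perm (Fin s))) : Type := Subgroup.closure {x | x ∈ ps}

/-- the codes of its elements -/
def cod (hs : s ≤ 16) (ps : List (Equiv.Perm (Fin s))) {o : ℕ} {gs : List ℕ}
    (ho : code (1 : Equiv.Perm (Fin s)) = o) (hg : ps.map code = gs) : Cod (Gen ps) s o gs where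
  c a := code a.1
  c_mul a b := code_mul hs a.1 b.1
  c_inv a := code_inv hs a.1
  c_one := ho
  inj _ _ h := Subtype.ext (code_inj hs h)
  ex g h := by
    obtain ⟨x, hx, rfl⟩ := List.mem_map.1 (hg ▸ h)
    exact ⟨⟨x, Subgroup.subset_closure hx⟩, rfl⟩
  ind P h1 h2 a := by
    obtain ⟨a, ha⟩ := a
    have hb : a ∈ Submonoid.closure {x | x ∈ ps} := by
      rw [← Subgroup.closure_toSubmonoid_of_finite]
      exact ha
    induction hb using Submonoid.closure_induction_right with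
    | one => exact h1
    | mul_right x hx y hy ih =>
      have hx' : x ∈ Subgroup.closure {x | x ∈ ps} := Subgroup.le_closure_toSubmonoid _ hx
      exact h2 ⟨x, hx'⟩ ⟨y, Subgroup.subset_closure hy⟩ (hg ▸ List.mem_map_of_mem hy) (ih hx')

end Vale.Agent.N258Q
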