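import Vale.Agent.N258Q.Fam
import Vale.Agent.N258Q.E2
import Vale.Agent.N258Q.E3
import Vale.Agent.N258Q.E4
import Vale.Agent.N258B.D5

/-! The satellites with the pattern `sat n`. -/

namespace Vale.Agent.N258Q

open Vale.Agent.N258B

open Set Filter Topology
open Vale.Agent.P258.Braid
open Vale.Agent.P258.Seven (G7 pow84)
open Vale.Agent.P002Z

theorem hasReg_post {nb o : ℕ} {w : Word} {G H : Type} [Group G] [Group H]
    {φ : PF (XX nb o w) G} {x0 : XX nb o w} {P : ℕ → G} (h : HasReg φ x0 P) (f : G →* H) :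
    HasReg (φ.post f) x0 fun j => f (P j) := by
  obtain ⟨τp, τm, ⟨h1, h2, h3⟩, h4⟩ := h
  refine ⟨fun y => f (τp y), fun y => f (τm y), ⟨fun x y p hp => ?_, fun x y p hp => ?_,
    fun y hy => ?_⟩, by simp only [h4, map_one]⟩
  · change f (φ.v p) = _
    rw [h1 x y p hp, map_mul, map_inv]
  · change f (φ.v p) = _
    rw [h2 x y p hp, map_mul, map_inv]
  · rw [h3 y hy, map_mul, reg_map]

theorem capd_map {nb : ℕ} {w : Word} {G H : Type} [Group G] [Group H] {P : ℕ → G}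
    (h : Capd nb w P) (f : G →* H) : Capd nb w fun j => f (P j) := fun j hj =>
  ⟨by simp only [(h j hj).1, map_one], by rw [reg_map, (h j hj).2, map_one]⟩

theorem Pc_map {m : ℕ} {G H : Type} [Group G] [Group H] (f : G →* H) (c : Fin m → G) (j : ℕ) :
    f (Pc c j) = Pc (fun i => f (c i)) j := by
  unfold Pc
  rw [map_list_prod, List.map_map, ← Function.comp_def f c, ← List.map_ofFn, ← List.map_take,
    List.map_map]
  congr 2
  funext g
  exact map_inv f g

variable {n : ℤ} {ν : Circle × ℂ → S3} {e : ↥(pattern 3 1 (sat n)) → S3}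
  {eX : C(XX 3 1 (sat n), ↥(core ν)ᶜ)}

theorem ok_sat (n : ℤ) : Ok 3 1 (sat n) :=
  ok_of_same (by norm_num) (fam_small n) (sat_rng n) (same_sat_comm (Multiplicative ℤ) n)

theorem split_sat (n : ℤ) (A : Type) [CommGroup A] : Split 3 1 (sat n) A :=
  split_of_same (fam_small n) (sat_rng n) (same_sat_comm A n)

theorem two_commutators (hn : Odd n) (E : Emb 3 1 (sat n) ν e eX) (hpref : Preferred ν)
    (x : ↥(core ν)ᶜ) (l : Path x x) (hl : ∀ t, (l t).1 = ν (ex t, 1)) :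
    ∃ a b c d : FundamentalGroup (↥(core ν)ᶜ) x,
      FundamentalGroup.fromPath (Path.Homotopic.Quotient.mk l) =
        a * b * a⁻¹ * b⁻¹ * (c * d * c⁻¹ * d⁻¹) := by
  have := pathConnected_compl E.hν
  obtain ⟨κ, hκ, -⟩ := exists_univ x
  obtain ⟨x0, -⟩ := exists_mem_up 3 1 (sat n)
  obtain ⟨b, mu, lam, sl, hmu, hlam, -, hv⟩ := exists_loops E.hν 0
  obtain ⟨i, d, k, hi, hd, hper⟩ := peripheral E (exists_int E.ok) mu lam hmu hlam
  obtain ⟨j, hj⟩ := raw_sat hn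
  obtain ⟨c0, c1, c2⟩ := exists_col E.ok (Multiplicative.ofAdd (1 : ZMod 0))
  have hk : k * i = -j := by
    have h1 := expo_dvd E hpref (N := 0) (split_sat n _) c1 c2 (x := j) (by
      obtain ⟨a, b, c, d, h⟩ := hj _ _ c1
      rw [h, c2, mul_inv_cancel_comm, mul_inv_cancel_comm, mul_inv_cancel, mul_inv_cancel,
        mul_one, mul_one, ← ofAdd_zsmul, zsmul_eq_mul, mul_one]) hlam hi (hper _)
    rw [Nat.cast_zero, zero_dvd_iff] at h1
    omega
  obtain ⟨P, hP, h⟩ := exists_lab E.ok (κ.comap eX) x0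
  obtain ⟨g, g1, g2⟩ := hper _ κ P x0 hP h
  obtain ⟨a, b, c, d', h3⟩ := hj _ P hP
  have h4 : κ.v lam = FundamentalGroup.fromPath (Path.Homotopic.Quotient.mk l) := by
    rw [κ.congr (p := lam) (q := l) fun t => Subtype.ext ((hlam t).trans (hl t).symm),
      ← PF.toHom_mk, hκ]
  have hii : i * i = 1 := by rcases hi with rfl | rfl <;> rfl
  have h5 : (P 1)⁻¹ ^ j = g⁻¹ * κ.v mu ^ (-k) * g := by
    have := conj_zpow (a := g⁻¹) (b := κ.v mu ^ i) (i := j)
    rw [inv_inv] at this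
    rw [g1, this, ← zpow_mul, show i * j = -k by linear_combination i * hk - k * hii]
  have h6 : κ.v lam ^ d = g * (a * b * a⁻¹ * b⁻¹ * (c * d' * c⁻¹ * d'⁻¹))⁻¹ * g⁻¹ := by
    rw [h3, h5, ((hv _ κ).1.zpow_zpow k d).eq] at g2
    calc κ.v lam ^ d = g * (g⁻¹ * (κ.v lam ^ d * κ.v mu ^ k) * g) * g⁻¹ * κ.v mu ^ (-k) := by
          group
      _ = _ := by rw [← g2]; group
  rw [← h4]
  rcases hd with rfl | rfl
  · refine ⟨g * d' * g⁻¹, g * c * g⁻¹, g * b * g⁻¹, g * a * g⁻¹, ?_⟩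
    rw [← zpow_one (κ.v lam), h6]
    group
  · refine ⟨g * a * g⁻¹, g * b * g⁻¹, g * c * g⁻¹, g * d' * g⁻¹, ?_⟩
    rw [← inv_inv (κ.v lam), ← zpow_neg_one (κ.v lam), h6]
    group

theorem col_pattern {G : Type} [Group G] (hn : Odd n)
    (hG : ∀ a ∈ commutator G, ∀ b ∈ commutator G, Commute a b) {c : Fin 6 → G} (h : Col n c) :
    c = ![c 0, (c 0)⁻¹, (c 0)⁻¹, c 0, (c 0)⁻¹, c 0] := by
  obtain ⟨h2, h4⟩ := col_metabelian hn hG h
  have h1 : c 1 = (c 0)⁻¹ := eq_inv_of_mul_eq_one_right (h.1 0)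
  have h3 : c 3 = (c 2)⁻¹ := eq_inv_of_mul_eq_one_right (h.1 2)
  have h5 : c 5 = (c 4)⁻¹ := eq_inv_of_mul_eq_one_right (h.1 4)
  rw [h2, inv_inv] at h3
  rw [h4, inv_inv] at h5
  funext i
  fin_cases i
  exacts [rfl, h1, h2, h3, h4, h5]

/-- metabelian representations are abelian -/
theorem metabelian_comm (hn : Odd n) (E : Emb 3 1 (sat n) ν e eX) {G : Type} [Group G]
    (hG : ∀ a ∈ commutator G, ∀ b ∈ commutator G, Commute a b) (β : PF (↥(core ν)ᶜ) G)
    {x : ↥(core ν)ᶜ} (p q : Path x x) : Commute (β.v p) (β.v q) := by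
  have := pathConnected_compl E.hν
  have hZ := exists_int E.ok
  obtain ⟨x0, hx⟩ := exists_mem_up 3 1 (sat n)
  obtain ⟨P, hP, h⟩ := exists_lab E.ok (β.comap eX) x0
  have h7 : P 7 ∈ commutator G := by
    have h1 := (split_sat n (Abelianization G)).flat E hZ hx (β.post Abelianization.of)
      (capd_map hP _) (hasReg_post h Abelianization.of) 7 (by norm_num) (by norm_num)
    rw [← Abelianization.ker_of]
    exact h1
  have hs0 := split_of_small (fam_small n) 1 G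
  have key : ∀ Q : ℕ → G, (∀ j ≤ 3, Q (2 * j) = 1) → Q 7 ∈ commutator G →
      SplitAt 3 1 (sat n) Q ∧ (Capd 3 (sat n) Q ↔ Capd 3 (fam n ++ turn) Q) := by
    intro Q h1 h2
    obtain ⟨a1, a2⟩ := sat_metabelian n hG h1 h2
    obtain ⟨⟨b1, b2⟩, -⟩ := hs0 Q (h1 0 (by omega))
    refine ⟨⟨fun j j1 j2 => (a1 j j2).trans (b1 j j1 j2),
      fun p p1 p2 => (a2 p p2).trans (b2 p p1 p2)⟩, ?_⟩
    exact forall₂_congr fun j hj => by rw [a1 _ (by omega)]
  obtain ⟨k1, k2⟩ := key P (fun j hj => (hP j hj).1) h7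
  obtain ⟨k3, k4⟩ := key (forget 3 P) (fun j hj => forget_le P (by omega))
    (forget_ge hP (j := 7) (by norm_num) ▸ h7)
  have hF := flat_of_splitAt E hZ hx β hP h k1 (k4.2 fun j hj => ⟨forget_le P (by omega),
    (hs0 _ (forget_le P (Nat.zero_le _))).2 (fun _ => forget_le P) _ (by omega)⟩) k3
  obtain ⟨c, hc⟩ := Pc_surj (capd_zero hP) hF
  have hcol : Col n c := (capd_iff hn c).1
    (capd_congr (ok_of_small (by norm_num) (fam_small n) 1) (k2.1 hP) hc)
  obtain ⟨c', d1, d2, -⟩ := col_ori hn (Multiplicative.ofAdd (1 : ℤ))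
  let f : Multiplicative ℤ →* G := zpowersHom G (c 0)
  have hf : f (c' 0) = c 0 := by rw [d2]; exact zpow_one _
  have hcc : (fun i => f (c' i)) = c := by
    rw [col_pattern hn hG hcol, col_pattern hn (fun a _ b _ => Commute.all a b) d1]
    funext i
    fin_cases i <;> simp [hf]
  have hP' : Capd 3 (sat n) (Pc c') :=
    (capd_same (fam_small n) (sat_rng n) (same_sat_comm _ n) _).2 ((capd_iff hn c').2 d1)
  obtain ⟨β', hβ'⟩ := exists_ext E x0 (split_sat n _ _ (Pc_zero c')).1 hP' (Pc_flat hP')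
  have h2 : HasReg ((β'.post f).comap eX) x0 P :=
    hasReg_congr E.ok (hasReg_post hβ' f) fun j hj => by
      rw [Pc_map, hc j hj]
      exact congrArg (fun c => Pc c j) hcc
  obtain ⟨s, -, hs⟩ := par_of_toHom (toHom_eq_of_flat E hZ hx k1 hP hF h2 h)
  rw [hs _ _ p fun _ => mem_univ _, hs _ _ q fun _ => mem_univ _]
  have h3 : Commute (f (β'.v p)) (f (β'.v q)) := (Commute.all _ _).map f
  change _ * f (β'.v p) * _ * (_ * f (β'.v q) * _) = _ * f (β'.v q) * _ * (_ * f (β'.v p) * _)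
  calc (s x)⁻¹ * f (β'.v p) * s x * ((s x)⁻¹ * f (β'.v q) * s x)
      = (s x)⁻¹ * (f (β'.v p) * f (β'.v q)) * s x := by group
    _ = _ := by rw [h3.eq]; group

theorem perfect (hn : Odd n) (E : Emb 3 1 (sat n) ν e eX) (x : ↥(core ν)ᶜ) :
    ⁅commutator (FundamentalGroup (↥(core ν)ᶜ) x), commutator (FundamentalGroup (↥(core ν)ᶜ) x)⁆ =
      commutator (FundamentalGroup (↥(core ν)ᶜ) x) := by
  have := pathConnected_compl E.hν
  obtain ⟨κ, hκ, -⟩ := exists_univ x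
  generalize hD : ⁅commutator (FundamentalGroup (↥(core ν)ᶜ) x),
    commutator (FundamentalGroup (↥(core ν)ᶜ) x)⁆ = D
  have hDn : D.Normal := hD ▸ inferInstance
  refine le_antisymm (hD ▸ Subgroup.commutator_le_left _ _) ?_
  have hG : ∀ a ∈ commutator (_ ⧸ D), ∀ b ∈ commutator (_ ⧸ D), Commute a b := by
    have h1 : commutator (_ ⧸ D) = (commutator _).map (QuotientGroup.mk' D) := by
      rw [map_commutator_eq, MonoidHom.range_eq_top.2 (QuotientGroup.mk'_surjective D)]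
      rfl
    rw [h1]
    rintro _ ⟨a, ha, rfl⟩ _ ⟨b, hb, rfl⟩
    rw [← commutatorElement_eq_one_iff_commute, ← map_commutatorElement,
      ← MonoidHom.mem_ker, QuotientGroup.ker_mk', ← hD]
    exact Subgroup.commutator_mem_commutator ha hb
  rw [commutator_def, Subgroup.commutator_le]
  intro a _ b _
  obtain ⟨p, rfl⟩ := Path.Homotopic.Quotient.mk_surjective a
  obtain ⟨q, rfl⟩ := Path.Homotopic.Quotient.mk_surjective b
  have h := metabelian_comm hn E hG (κ.post (QuotientGroup.mk' D)) p q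
  change Commute (QuotientGroup.mk' D (κ.v p)) (QuotientGroup.mk' D (κ.v q)) at h
  rw [← PF.toHom_mk, ← PF.toHom_mk, hκ, hκ, ← commutatorElement_eq_one_iff_commute,
    ← map_commutatorElement, ← MonoidHom.mem_ker, QuotientGroup.ker_mk'] at h
  exact h

theorem pow840 {G : Type} [Group G] {N : ℕ} (h : ∀ g : G, g ^ N = 1) (hd : N ∣ 840) (g : G) :
    g ^ 840 = 1 := by
  obtain ⟨k, hk⟩ := hd
  rw [hk, pow_mul, h, one_pow]

theorem equiv_sat {G : Type} [Group G] {N : ℕ} (h : ∀ g : G, g ^ N = 1) (hd : N ∣ 840) (n : ℤ) :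
    Equiv (2 * 3 + 1) G N (fam n ++ turn) (sat n) :=
  ⟨same_sat_exp (pow840 h hd) n, same_sat_comm _ n⟩

theorem explicit (o : ℕ) : ∃ S : Subgroup (BraidGroup (2 * 3 + o)), S.Normal ∧ S.FiniteIndex ∧
    ∀ n : ℤ, Odd n → n % 840 ∉ [1, 121, 361, 479, 719, 839] →
      (∀ w : Word, InCoset S (fam n ++ turn) w →
        ∀ e : ↥(pattern 3 o w) → S3, (IsOpenEmbedding e → ∃ ν, Framed 3 o w e ν) ∧
          ∀ ν, Framed 3 o w e ν → ∀ p r : ℤ, 840 ∣ p - 2 → 840 ∣ r + 2 →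
            Distinct (Surgery ν p) (Surgery ν r)) ∧
      (o = 1 → ∃ w : Word, InCoset S (fam n ++ turn) w ∧ (9 ∣ n → Essential 3 w 6) ∧
        ∀ e ν, Framed 3 o w e ν → GenusTwoAlexOne ν) := by
  have f0 := actKer_finiteIndex (2 * 3 + o) G7 84 (by norm_num)
  have f1 := actKer_finiteIndex (2 * 3 + o) (Gen ps5) 60 (by norm_num)
  have f2 := actKer_finiteIndex (2 * 3 + o) (Gen psA) 60 (by norm_num)
  have f3 := actKer_finiteIndex (2 * 3 + o) (Gen ps6) 60 (by norm_num)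
  have f4 := actKer_finiteIndex (2 * 3 + o) (Gen ps9) 120 (by norm_num)
  have f5 := actKer_finiteIndex (2 * 3 + o) (Gen ps8) 168 (by norm_num)
  have f6 := actKer_finiteIndex (2 * 3 + o) (Gen ps7) 420 (by norm_num)
  refine ⟨actKer (2 * 3 + o) G7 84 ⊓
    (actKer (2 * 3 + o) (Gen ps5) 60 ⊓
    (actKer (2 * 3 + o) (Gen psA) 60 ⊓
    (actKer (2 * 3 + o) (Gen ps6) 60 ⊓
    (actKer (2 * 3 + o) (Gen ps9) 120 ⊓
    (actKer (2 * 3 + o) (Gen ps8) 168 ⊓
    (actKer (2 * 3 + o) (Gen ps7) 420)))))),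
    inferInstance, inferInstance, fun n hodd hn => ⟨?_, ?_⟩⟩
  · rintro w ⟨hw, s0, s1, s2, s3, s4, s5, s6⟩ e
    have hE := (mem_actKer _ _ _ _ _).1 s0
    refine ⟨exists_framed (ok_of_same (by norm_num) (fam_small n) hw hE.1)
      (per_of_same hodd hw hE.1), ?_⟩
    rcases sep_one n hodd hn with h | h | h | h | h | h | h
    · exact h o w hw ((mem_actKer _ _ _ _ _).1 s0) e
    · exact h o w hw ((mem_actKer _ _ _ _ _).1 s1) e
    · exact h o w hw ((mem_actKer _ _ _ _ _).1 s2) e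
    · exact h o w hw ((mem_actKer _ _ _ _ _).1 s3) e
    · exact h o w hw ((mem_actKer _ _ _ _ _).1 s4) e
    · exact h o w hw ((mem_actKer _ _ _ _ _).1 s5) e
    · exact h o w hw ((mem_actKer _ _ _ _ _).1 s6) e
  rintro rfl
  refine ⟨sat n, ⟨sat_rng n, (mem_actKer _ _ _ _ _).2 (equiv_sat pow84 (by norm_num) n),
    (mem_actKer _ _ _ _ _).2 (equiv_sat pow5 (by norm_num) n),
    (mem_actKer _ _ _ _ _).2 (equiv_sat powA (by norm_num) n),
    (mem_actKer _ _ _ _ _).2 (equiv_sat pow6 (by norm_num) n),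
    (mem_actKer _ _ _ _ _).2 (equiv_sat pow9 (by norm_num) n),
    (mem_actKer _ _ _ _ _).2 (equiv_sat pow8 (by norm_num) n),
    (mem_actKer _ _ _ _ _).2 (equiv_sat pow7 (by norm_num) n)⟩, fun h => ?_, ?_⟩
  · obtain ⟨P, p1, p2, p3⟩ := sat_essential (n := n) (by
      rw [Int.odd_iff] at hodd
      omega)
    exact essential_of (ok_sat n) p1 p2 le_rfl (by norm_num) p3
  · rintro e ν ⟨he, hν, hcore, hpref⟩ x l hl
    obtain ⟨eX, E⟩ := exists_emb (ok_sat n) he hν hcore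
    exact ⟨two_commutators hodd E hpref x l hl, perfect hodd E x⟩

end Vale.Agent.N258Q
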