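import Vale.Agent.N258Q.Code
import Vale.Agent.P258.R2.H390.Odd3

/-! Soundness of the enumeration. -/

namespace Vale.Agent.N258Q

open Vale.Agent.P258.Second (force force_eq)
open Vale.Agent.P258.Braid
open Vale.Agent.P258.Seven (Cond)

theorem tab_eq (g : ℕ → ℕ) : ∀ (l : List ℕ) (k : List (ℕ × ℕ) → Bool),
    tab g l k = k (l.map fun z => (z, g z))
  | [], _ => rfl
  | z :: l, k => by rw [tab, force_eq, tab_eq g l]; rfl

theorem scan_sound {v : ℕ} {f : ℕ → Bool} : ∀ {T : List (ℕ × ℕ)}, scan v f T = true →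
    ∀ z, (z, v) ∈ T → f z = false
  | [], _, _, h => by simp at h
  | e :: T, h, z, hz => by
    have h1 : cond (Nat.beq v e.2) (cond (f e.1) false (scan v f T)) (scan v f T) = true := h
    rcases List.mem_cons.1 hz with rfl | hz
    · rw [Nat.beq_refl, cond_true] at h1
      cases h2 : f z
      · rfl
      · simp [h2] at h1
    · refine scan_sound ?_ z hz
      revert h1
      cases Nat.beq v e.2 <;> cases f e.1 <;> simp

theorem look_nd (x : ℕ) (a : Tr) (k v : ℕ) (b : Tr) : look x (.nd a k v b) =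
    cond (Nat.beq x k) v (cond (Nat.ble x k) (look x a) (look x b)) := rfl

theorem look_all {f : ℕ → ℕ → Bool} {x : ℕ} : ∀ {t : Tr}, allT f t = true → look x t ≠ 0 →
    f x (look x t) = true
  | .nil, _, h => absurd rfl h
  | .nd a k v b, h, hx => by
    have h1 : (f k v && (allT f a && allT f b)) = true := h
    simp only [Bool.and_eq_true] at h1
    rw [look_nd] at hx ⊢
    cases h2 : Nat.beq x k
    · rw [h2, cond_false] at hx
      rw [cond_false]
      revert hx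
      cases Nat.ble x k
      · exact look_all h1.2.2
      · exact look_all h1.2.1
    · rw [cond_true, Nat.eq_of_beq_eq_true h2]
      exact h1.1

theorem sel_nd (j : ℕ) (a : Tr) (k v : ℕ) (b : Tr) (l : List ℕ) : sel j (.nd a k v b) l =
    sel j a (cond (Nat.beq (Nat.mod v 16) j) (k :: sel j b l) (sel j b l)) := rfl

theorem sel_sub {j x : ℕ} : ∀ {t : Tr} {l : List ℕ}, x ∈ l → x ∈ sel j t l
  | .nil, _, h => h
  | .nd a k v b, l, h => by
    rw [sel_nd]
    refine sel_sub ?_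
    cases Nat.beq (Nat.mod v 16) j
    · exact sel_sub h
    · exact List.mem_cons_of_mem _ (sel_sub h)

theorem mem_sel {x : ℕ} : ∀ {t : Tr} (l : List ℕ), look x t ≠ 0 → x ∈ sel (look x t % 16) t l
  | .nil, _, h => absurd rfl h
  | .nd a k v b, l, hx => by
    rw [sel_nd]
    rw [look_nd] at hx ⊢
    cases h2 : Nat.beq x k
    · rw [h2, cond_false] at hx
      rw [cond_false]
      revert hx
      cases Nat.ble x k
      · intro hx
        refine sel_sub ?_
        rw [cond_false] at hx ⊢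
        cases Nat.beq (Nat.mod v 16) (look x b % 16)
        · exact mem_sel l hx
        · exact List.mem_cons_of_mem _ (mem_sel l hx)
      · exact mem_sel _
    · refine sel_sub ?_
      rw [cond_true, show Nat.beq (Nat.mod v 16) (v % 16) = true from Nat.beq_refl _, cond_true,
        Nat.eq_of_beq_eq_true h2]
      exact List.mem_cons_self

/-- a group with codes for its elements -/
structure Cod (G : Type) [Group G] (s o : ℕ) (gs : List ℕ) : Type where
  c : G → ℕ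
  c_mul : ∀ a b, mul s (c a) (c b) = c (a * b)
  c_inv : ∀ a, inv s (c a) = c a⁻¹
  c_one : c 1 = o
  inj : Function.Injective c
  ex : ∀ g ∈ gs, ∃ a, c a = g
  ind : ∀ P : G → Prop, P 1 → (∀ a b, c b ∈ gs → P a → P (a * b)) → ∀ a, P a

namespace Cod

variable {G : Type} [Group G] {s o N : ℕ} {gs rs : List ℕ} {T : Tr} (C : Cod G s o gs)

theorem beq_c (a b : G) : Nat.beq (C.c a) (C.c b) = true ↔ a = b :=
  ⟨fun h => C.inj (Nat.eq_of_beq_eq_true h), fun h => h ▸ Nat.beq_refl _⟩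

theorem beq_o (a : G) : Nat.beq (C.c a) o = true ↔ a = 1 := by
  rw [← C.beq_c, C.c_one]

theorem pw_c : ∀ (f k : ℕ) (g : G), k < 2 ^ f → pw s o f (C.c g) k = C.c (g ^ k)
  | 0, k, g, h => by
    obtain rfl : k = 0 := by simpa using h
    rw [pow_zero, C.c_one]
    rfl
  | f + 1, 0, g, _ => by
    rw [pow_zero, C.c_one]
    rfl
  | f + 1, 1, g, _ => by
    rw [pow_one]
    rfl
  | f + 1, k + 2, g, h => by
    have hk : (k + 2) / 2 < 2 ^ f := by
      rw [pow_succ] at h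
      omega
    have e : pw s o (f + 1) (C.c g) (k + 2) = force (mul s (C.c g) (C.c g)) fun y =>
      force ((k + 2) / 2) fun j => force (pw s o f y j) fun r =>
        cond (Nat.beq ((k + 2) % 2) 1) (mul s (C.c g) r) r := rfl
    rw [e, force_eq, force_eq, force_eq, C.c_mul, pw_c f _ _ hk, ← pow_two, ← pow_mul]
    rcases Nat.mod_two_eq_zero_or_one (k + 2) with h0 | h0
    · rw [h0, show 2 * ((k + 2) / 2) = k + 2 by omega]
      rfl
    · rw [h0, C.c_mul, ← pow_succ', show 2 * ((k + 2) / 2) + 1 = k + 2 by omega]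
      rfl

theorem full_iff {h k : ℕ} (hh : h ≤ 600) (hk : k < 4096) (X Y Z : G) :
    full s o (2 * h + 1) h k (C.c X) (C.c Y) (C.c Z) = true ↔ Cond h k X Y Z := by
  have e7 : ∀ g, pw s o 12 (C.c g) h = C.c (g ^ h) := fun g => C.pw_c 12 h g (by omega)
  have e8 : ∀ g, pw s o 12 (C.c g) (2 * h + 1) = C.c (g ^ (2 * h + 1)) := fun g =>
    C.pw_c 12 _ g (by omega)
  have e9 : ∀ g, pw s o 12 (C.c g) k = C.c (g ^ k) := fun g => C.pw_c 12 k g (by omega)
  unfold full Cond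
  simp only [force_eq, C.c_inv, C.c_mul, e7, e8, e9, Bool.and_eq_true, C.beq_o, C.beq_c]

theorem enum_sound {h k : ℕ} (hh : h ≤ 600) (hk : k < 4096) {X Y Z : G} {cl : List ℕ}
    (hX : C.c X⁻¹ ∈ cl) (hZ : C.c Z ∈ cl) (hc : Cond h k X Y Z)
    (h0 : enum s o (2 * h + 1) h k (C.c Y) cl = true) : False := by
  have e8 : ∀ g, pw s o 12 (C.c g) (2 * h + 1) = C.c (g ^ (2 * h + 1)) := fun g =>
    C.pw_c 12 _ g (by omega)
  unfold enum at h0
  simp only [force_eq, tab_eq, List.all_eq_true] at h0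
  have h1 := h0 _ hX
  rw [C.c_inv X⁻¹, inv_inv] at h1
  have h2 := scan_sound h1 (C.c Z) (List.mem_map.2 ⟨_, hZ, ?_⟩)
  · rw [(C.full_iff hh hk X Y Z).2 hc] at h2
    exact absurd h2 (by decide)
  · unfold ez fx
    simp only [force_eq, C.c_inv, C.c_mul, e8]
    rw [eq_inv_of_mul_eq_one_left hc.2.2.1]

theorem ev_c (w : List ℕ) : ∃ a, C.c a = ev s o gs w := by
  have : ∀ (w : List ℕ) (a : G), ∃ b,
      C.c b = w.foldl (fun a i => mul s a (gs.getD i o)) (C.c a) := by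
    intro w
    induction w with
    | nil => exact fun a => ⟨a, rfl⟩
    | cons i w ih =>
      intro a
      obtain ⟨g, hg⟩ : ∃ g, C.c g = gs.getD i o := by
        rw [List.getD_eq_getElem?_getD]
        cases h : gs[i]? with
        | none => exact ⟨1, C.c_one⟩
        | some x => exact C.ex x (List.mem_of_getElem? h)
      rw [List.foldl_cons, ← hg, C.c_mul]
      exact ih _
  have h := this w 1
  rwa [C.c_one] at h

section

variable (hc : chk s o N gs rs T = true)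
include hc C

theorem step {a : G} (h : look (C.c a) T ≠ 0) :
    (∀ b, C.c b ∈ gs → look (C.c (a * b)) T ≠ 0 ∧
      look (C.c (b⁻¹ * (a * b))) T % 16 = look (C.c a) T % 16) ∧
    (N < 4096 → a ^ N = 1) ∧ (a ^ 4 = 1 ∨ (look (C.c a) T % 16 < rs.length ∧
      (C.c a = rs.getD (look (C.c a) T % 16) 0 ∨
        ∃ b, look (C.c (b⁻¹ * (a * b))) T / 16 < look (C.c a) T / 16))) := by
  unfold chk at hc
  rw [Bool.and_eq_true] at hc
  have h1 := look_all hc.2 h
  simp only [Bool.and_eq_true, Bool.or_eq_true, List.all_eq_true, List.any_eq_true, force_eq,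
    C.pw_c 12 4 a (by norm_num), C.beq_o] at h1
  obtain ⟨h2, h3, h4⟩ := h1
  refine ⟨fun b hb => ?_, fun hN => ?_, h4.imp_right fun h5 => ⟨?_, h5.2.imp ?_ ?_⟩⟩
  · have h6 := h2 _ hb
    rw [C.c_mul, C.c_inv, C.c_mul] at h6
    refine ⟨fun h7 => ?_, Nat.eq_of_beq_eq_true h6.2⟩
    rw [h7] at h6
    exact absurd h6.1 (by decide)
  · rwa [C.pw_c 12 N a (by omega), C.beq_o] at h3
  · exact Nat.blt_eq.mp h5.1
  · exact Nat.eq_of_beq_eq_true
  · rintro ⟨g, hg, h6⟩
    obtain ⟨b, rfl⟩ := C.ex g hg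
    rw [C.c_mul, C.c_inv, C.c_mul] at h6
    exact ⟨b, Nat.blt_eq.mp h6⟩

theorem look_ne (a : G) : look (C.c a) T ≠ 0 := by
  refine C.ind (fun a => look (C.c a) T ≠ 0) ?_ (fun a b hb h => ((C.step hc h).1 b hb).1) a
  unfold chk at hc
  rw [Bool.and_eq_true] at hc
  intro h
  rw [C.c_one] at h
  rw [h] at hc
  exact absurd hc.1 (by decide)

theorem cl_conj (g a : G) : look (C.c (g⁻¹ * a * g)) T % 16 = look (C.c a) T % 16 := by
  refine C.ind (fun g => ∀ a, look (C.c (g⁻¹ * a * g)) T % 16 = look (C.c a) T % 16)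
    (fun a => by simp) (fun g b hb h a => ?_) g a
  rw [← h a, ← ((C.step hc (C.look_ne hc (g⁻¹ * a * g))).1 b hb).2]
  congr 3
  group

theorem rep : ∀ (n : ℕ) (a : G), look (C.c a) T / 16 < n → a ^ 4 ≠ 1 →
    ∃ W : G, C.c (W⁻¹ * a * W) = rs.getD (look (C.c a) T % 16) 0
  | 0, _, h, _ => absurd h (Nat.not_lt_zero _)
  | n + 1, a, h, h4 => by
    rcases ((C.step hc (C.look_ne hc a)).2.2.resolve_left h4).2 with h1 | ⟨b, h1⟩
    · exact ⟨1, by simpa using h1⟩
    · obtain ⟨W, hW⟩ := rep n (b⁻¹ * (a * b)) (by omega) (fun h5 => h4 (by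
        have : a = b * (b⁻¹ * (a * b)) * b⁻¹ := by group
        rw [this, conj_pow, h5, mul_one, mul_inv_cancel]))
      rw [← mul_assoc b⁻¹, C.cl_conj hc] at hW
      refine ⟨b * W, Eq.trans ?_ hW⟩
      congr 1
      group

theorem key {h k : ℕ} {p : ℤ} (hh : h ≤ 600) (hk : k < 4096)
    (hkp : (k : ℤ) = 3 * (2 * h + 1) - 1 - p)
    (hE : ∀ j < rs.length, enum s o (2 * h + 1) h k (rs.getD j 0) (sel j T []) = true)
    (c : Fin 6 → G) (hg : Good caps6 (fam (2 * (h : ℤ) + 1)) p 1 c) : c 0 ^ 4 = 1 := by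
  by_contra hne
  obtain ⟨-, -, -, hc0⟩ := (good_iff h p k hkp (expo_odd h) c).1 hg
  obtain ⟨g0, hY0⟩ := conjP1 _ _ _ _ _ _ _ hc0.1
  have h4 : c 2 ^ 4 ≠ 1 := fun h5 => hne (by
    have : c 0 = (g0 * c 2 * g0⁻¹)⁻¹ := by rw [hY0]; group
    rw [this, inv_pow, conj_pow, h5, mul_one, mul_inv_cancel, inv_one])
  obtain ⟨W, hW⟩ := C.rep hc _ (c 2) (Nat.lt_succ_self _) h4
  have hj := ((C.step hc (C.look_ne hc (c 2))).2.2.resolve_left h4).1
  have hv := hg.map (MulAut.conj W⁻¹).toMonoidHom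
  obtain ⟨v, hvd⟩ : ∃ v : Fin 6 → G, v = fun i => (MulAut.conj W⁻¹).toMonoidHom (c i) := ⟨_, rfl⟩
  rw [← hvd] at hv
  have hv2 : W⁻¹ * c 2 * W = v 2 := by rw [hvd]; simp
  rw [← C.cl_conj hc W, hv2] at hj hW
  obtain ⟨-, -, -, hcv⟩ := (good_iff h p k hkp (expo_odd h) v).1 hv
  obtain ⟨g, hY⟩ := conjP1 _ _ _ _ _ _ _ hcv.1
  obtain ⟨g', hZ⟩ := conjP3 _ _ _ _ _ _ hcv.2.1
  have h0 := hE _ hj
  rw [← hW] at h0
  refine C.enum_sound hh hk ?_ ?_ hcv h0
  · rw [hY, C.cl_conj hc]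
    exact mem_sel _ (C.look_ne hc _)
  · rw [← C.cl_conj hc g', ← hZ]
    exact mem_sel _ (C.look_ne hc _)

theorem sep0 [Finite G] {h k k' : ℕ} {p : ℤ} (hp : p = 2 ∨ p = -2) (hh : h ≤ 600) (hk : k < 4096)
    (hkp : (k : ℤ) = 3 * (2 * h + 1) - 1 - p) (hkp' : (k' : ℤ) = 3 * (2 * h + 1) - 1 - -p)
    (hE : ∀ j < rs.length, enum s o (2 * h + 1) h k (rs.getD j 0) (sel j T []) = true)
    {X Y Z : G} (hX : X ^ 4 ≠ 1) (hf : Cond h k' X Y Z) :
    caps6.homCount G (fam (2 * (h : ℤ) + 1)) p 1 <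
      caps6.homCount G (fam (2 * (h : ℤ) + 1)) (-p) 1 := by
  rw [homCount_eq, homCount_eq]
  have hkey := C.key hc hh hk hkp hE
  have hsub : {c : Fin 6 → G | Good caps6 (fam (2 * (h : ℤ) + 1)) p 1 c} ⊂
      {c : Fin 6 → G | Good caps6 (fam (2 * (h : ℤ) + 1)) (-p) 1 c} := by
    refine ⟨fun c hc => ?_, fun hle => ?_⟩
    · have hg : Good caps6 (fam (2 * (h : ℤ) + 1)) p 1 c := hc
      refine ⟨hg.bot, hg.top, ?_⟩
      have h4 : c caps6.base ^ (4 : ℤ) = 1 := by exact_mod_cast hkey c hg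
      have e1 : c caps6.base ^ (-p) = c caps6.base ^ p := by
        rcases hp with rfl | rfl
        · rw [show (2 : ℤ) = 4 + -2 by norm_num, zpow_add, h4, one_mul]
          norm_num
        · rw [show - -(2 : ℤ) = 4 + -2 by norm_num, zpow_add, h4, one_mul]
      rw [e1]
      exact hg.slope
    · exact hX (hkey ![X, X⁻¹, Y, Y⁻¹, Z, Z⁻¹]
        (hle ((good_iff h (-p) k' hkp' (expo_odd h) _).2 ⟨rfl, rfl, rfl, hf⟩)))
  exact Set.ncard_lt_ncard hsub (Set.toFinite _)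

theorem sep [Finite G] {t : ℕ × Bool × List ℕ × List ℕ × List ℕ}
    (ht : Task s o gs rs T t) :
    caps6.homCount G (fam (2 * (t.1 : ℤ) + 1)) 2 1 ≠
      caps6.homCount G (fam (2 * (t.1 : ℤ) + 1)) (-2) 1 := by
  obtain ⟨h, b, w1, w2, w3⟩ := t
  obtain ⟨X, hX⟩ := C.ev_c w1
  obtain ⟨Y, hY⟩ := C.ev_c w2
  obtain ⟨Z, hZ⟩ := C.ev_c w3
  unfold Task wit part at ht
  simp only [force_eq, ← hX, ← hY, ← hZ, Bool.and_eq_true, C.pw_c 12 4 X (by norm_num)] at ht
  obtain ⟨⟨h1, h2, h3⟩, h4⟩ := ht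
  have hh : h ≤ 600 := Nat.le_of_ble_eq_true h1
  have h5 : X ^ 4 ≠ 1 := fun h6 => by
    rw [(C.beq_o _).2 h6] at h2
    exact absurd h2 (by decide)
  cases b
  · exact (C.sep0 hc (p := -2) (Or.inr rfl) hh (k := 6 * h + 4) (k' := 6 * h) (by omega)
      (by push_cast; ring) (by push_cast; ring) h4 h5
      ((C.full_iff hh (by omega) X Y Z).1 h3)).ne'
  · exact (C.sep0 hc (p := 2) (Or.inl rfl) hh (k := 6 * h) (k' := 6 * h + 4) (by omega)
      (by push_cast; ring) (by push_cast; ring) h4 h5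
      ((C.full_iff hh (by omega) X Y Z).1 h3)).ne

theorem pow_eq (hN : N < 4096) (a : G) : a ^ N = 1 := (C.step hc (C.look_ne hc a)).2.1 hN

end

end Cod

end Vale.Agent.N258Q
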