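import Vale.Agent.N258Q.G9

/-! Enumeration of colourings. -/

namespace Vale.Agent.N258Q

def ts9c : List (ℕ × Bool × List ℕ × List ℕ × List ℕ) :=
  [(43, true, [0, 2, 0, 1], [0, 0, 2], [1, 0, 2, 0]), (46, false, [2], [2, 2, 1, 0, 2], [0, 2]),
  (73, true, [0, 2, 0, 1], [0, 0, 2], [1, 0, 2, 0]), (76, false, [2], [2, 2, 1, 0, 2], [0, 2])]

theorem tk9c0 : Task 10 654820258320 gs9 rs9 tr9
    (43, true, [0, 2, 0, 1], [0, 0, 2], [1, 0, 2, 0]) :=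
  ⟨by decide +kernel, by decide +kernel⟩

theorem tk9c1 : Task 10 654820258320 gs9 rs9 tr9
    (46, false, [2], [2, 2, 1, 0, 2], [0, 2]) :=
  ⟨by decide +kernel, by decide +kernel⟩

theorem tk9c2 : Task 10 654820258320 gs9 rs9 tr9
    (73, true, [0, 2, 0, 1], [0, 0, 2], [1, 0, 2, 0]) :=
  ⟨by decide +kernel, by decide +kernel⟩

theorem tk9c3 : Task 10 654820258320 gs9 rs9 tr9
    (76, false, [2], [2, 2, 1, 0, 2], [0, 2]) :=
  ⟨by decide +kernel, by decide +kernel⟩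

theorem ok9c : ∀ t ∈ ts9c, Task 10 654820258320 gs9 rs9 tr9 t :=
  List.forall_mem_cons.2 ⟨tk9c0,
  List.forall_mem_cons.2 ⟨tk9c1,
  List.forall_mem_cons.2 ⟨tk9c2,
  List.forall_mem_cons.2 ⟨tk9c3,
  List.forall_mem_nil _⟩⟩⟩⟩

end Vale.Agent.N258Q
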